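import Vale.Agent.P128.J.Flat0

/-! P128 J/Flat (TASK, owner helper27, notes/P128J.md). Helper names end with `_Flat`.
`down`: induction on `k` for `s ∈ [t₁ / 4^(k+2), t₁ / 4^(k+1)]`; the step applies `hN` at `t = 4 s`. `rf_of_low`: `δ₁` from `NEAR2`, `Λ ε₀` for `η = 1/20000`, `τ₁ = min (1/10) (1/(4Λ))`. `NEAR2` at `(y, τ₁ r)` gives `lenc K y s₀ ≤ (2+η) s₀`
for `s₀ = τ₁ r / 4`; for `z ∈ K`, `‖z - y‖ ≤ s₀ / 10`: `len K z (9/10 s₀) ≤ len K y s₀ ≤ lenc K y s₀` (`AM0.mono_real`, `AM0.upper_real`), `down` with `t₁ = 9/10 s₀`, `close_two`. `VFl`: `NEAR2` for `η'` at a small `t`, `s = t/4`.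
`flat_J`: `GOODSC` with `δ = δ₁`, `tan_core` with `R = τ₁ r / 40`, `graph_of_tan` with `h = θ R`, `θ = min (1/400) ((1 / (1000 B))^4 / 4)`, `Graph.mono` with `A' = 10 B (40 / τ₁)^(1/4)`, `τ₀ = θ τ₁ / 40`. -/

namespace Vale.Agent.P128.J

open MeasureTheory Set Metric Filter Topology
open scoped ENNReal ComplexConjugate

noncomputable section

variable {Ω K P M : Set ℂ} {ε r s t η ρ B : ℝ} {wk : Prop} {u : ℂ → ℝ} {x y e : ℂ}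

theorem flat_J {c : ℝ} (hc : 0 < c) : ∃ δ₀ ε₀ τ₁ τ₀ A α : ℝ, 0 < δ₀ ∧ 0 < ε₀ ∧ 0 < τ₀ ∧
    τ₀ ≤ τ₁ ∧ τ₁ ≤ 1 / 10 ∧ 0 < α ∧ α ≤ 1 ∧
    ∀ (Ω : Set ℂ) (ε : ℝ) (wk : Prop) (u : ℂ → ℝ) (K : Set ℂ), AM Ω ε wk c u K →
    ∀ (y : ℂ) (r : ℝ), y ∈ K → 0 < r → closedBall y r ⊆ Ω → ε * √r ≤ ε₀ →
      D u K y r ≤ δ₀ * r → len K y (τ₁ * r) ≤ 2.5 * (τ₁ * r) →
      ∃ e φ φ', Graph K y e (τ₀ * r) A α r φ φ' := by
  obtain ⟨δ₁, ε₁, τ₁, hδ₁, hε₁, hτ₁, hτ₁', hrf⟩ := rf_of_low hc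
  obtain ⟨δ₀, ε₀, hδ₀, hε₀, hgood⟩ := GOODSC hc hδ₁
  obtain ⟨B, hB, htan⟩ := tan_core
  obtain ⟨θ, hθ, hθ1, hθ2⟩ : ∃ θ : ℝ, 0 < θ ∧ θ ≤ 1 / 400 ∧
      B * (4 * θ) ^ (1 / 4 : ℝ) ≤ 1 / 1000 := by
    have h1 := (tendsto_q (r := 1 / 4) (by norm_num) B).eventually
      (gt_mem_nhds (by norm_num : (0 : ℝ) < 1 / 1000))
    obtain ⟨θ, h2, h3⟩ := (h1.and (Ioc_mem_nhdsGT (by norm_num : (0 : ℝ) < 1 / 400))).exists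
    refine ⟨θ, h3.1, h3.2, ?_⟩
    rw [show 4 * θ = θ / (1 / 4) by ring]
    exact h2.le
  refine ⟨δ₀, min ε₀ ε₁, τ₁, θ * τ₁ / 40, 10 * B * (40 / τ₁) ^ (1 / 4 : ℝ), 1 / 4, hδ₀,
    lt_min hε₀ hε₁, by positivity, by nlinarith, hτ₁', by norm_num, by norm_num,
    fun Ω ε wk u K h y r hy hr hΩ hε hD hl => ?_⟩
  obtain ⟨h1, h2, h3⟩ := hrf Ω ε wk u K h y r hy hr hΩ (hε.trans (min_le_right _ _))
    (hgood Ω ε wk u K h y r hr hΩ (hε.trans (min_le_left _ _)) hD) hl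
  have hR : 0 < τ₁ * r / 40 := by positivity
  have hT := htan Ω ε wk u K h.toAM0 y hy _ hR
    ((closedBall_subset_closedBall (by nlinarith)).trans hΩ) h1 h2 h3
  obtain ⟨e, φ, φ', hG⟩ := graph_of_tan (h := θ * (τ₁ * r / 40)) h.closed hy hT hR (by linarith)
    (by positivity) (by nlinarith) (by
      rw [show 4 * (θ * (τ₁ * r / 40)) / (τ₁ * r / 40) = 4 * θ by field_simp]
      exact hθ2)
  refine ⟨e, φ, φ', hG.mono hR (by norm_num) (le_of_eq (by ring)) hr (le_of_eq ?_)⟩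
  rw [max_eq_left (by linarith), show r / (τ₁ * r / 40) = 40 / τ₁ by field_simp]

end

end Vale.Agent.P128.J
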