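import Vale.Agent.P128.J.Alg0

/-! P128 J/Alg (TASK, owner helper27, notes/P128J.md). Helper names end with `_Alg`.
Elementary algebra of `ht`, `ab`, `dirn`, `rot` (`e * conj e = 1` from `Complex.mul_conj`, `Complex.normSq_eq_norm_sq`; `Complex.abs_re_le_norm`, `Complex.abs_im_le_norm`).
`unit_close`: `‖e - e'‖² = 2 - 2 re`, `re ≥ re² = 1 - im²`. `dirn_near`: `t ‖dirn - d‖ ≤ |t - a| + ‖a dirn - t d‖`, `a = ‖w - y‖`, `‖dirn‖ ≤ 1`.
`im_two`: with `v = dirn y y'`, `τ' conj τ = (v conj τ) conj (v conj τ')`. `angle_of_close`: `α = arg (d' conj d)`, `re > 0` so `|α| < π/2`, `|sin α| ≤ κ`, `Real.mul_abs_le_abs_sin`. -/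

namespace Vale.Agent.P128.J

open MeasureTheory Set Metric Filter Topology
open scoped ENNReal ComplexConjugate

noncomputable section

variable {Ω K P M : Set ℂ} {ε r s t η ρ B : ℝ} {wk : Prop} {u : ℂ → ℝ} {x y e : ℂ}

theorem unit_Alg (he : ‖e‖ = 1) : e * conj e = 1 := by
  rw [Complex.mul_conj, Complex.normSq_eq_norm_sq, he]
  norm_num

theorem sq_Alg (z : ℂ) : ‖z‖ ^ 2 = z.re ^ 2 + z.im ^ 2 := by
  rw [Complex.sq_norm, Complex.normSq_apply]
  ring

theorem norm_dirn {w : ℂ} (h : w ≠ y) : ‖dirn y w‖ = 1 := by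
  rw [dirn, norm_div, Complex.norm_real, norm_norm, div_self (norm_ne_zero_iff.2 (sub_ne_zero.2 h))]

theorem norm_dirn_le (y w : ℂ) : ‖dirn y w‖ ≤ 1 := by
  rw [dirn, norm_div, Complex.norm_real, norm_norm]
  exact div_self_le_one _

theorem dirn_eq (y w : ℂ) : w - y = ((‖w - y‖ : ℝ) : ℂ) * dirn y w := by
  by_cases h : w = y
  · simp [h]
  · rw [dirn, mul_div_cancel₀ _ (Complex.ofReal_ne_zero.2 (norm_ne_zero_iff.2 (sub_ne_zero.2 h)))]

theorem norm_sub_dirn (y w d : ℂ) :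
    ‖w - (y + ((‖w - y‖ : ℝ) : ℂ) * d)‖ = ‖w - y‖ * ‖dirn y w - d‖ := by
  have e : w - (y + ((‖w - y‖ : ℝ) : ℂ) * d) = ((‖w - y‖ : ℝ) : ℂ) * (dirn y w - d) := by
    linear_combination dirn_eq y w
  rw [e, norm_mul, Complex.norm_real, norm_norm]

theorem ht_eq_dirn (y e w : ℂ) : ht y e w = ‖w - y‖ * (dirn y w * conj e).im ∧
    ab y e w = ‖w - y‖ * (dirn y w * conj e).re := by
  have h : (w - y) * conj e = ((‖w - y‖ : ℝ) : ℂ) * (dirn y w * conj e) := by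
    linear_combination dirn_eq y w * conj e
  rw [ht, ab, h, Complex.re_ofReal_mul, Complex.im_ofReal_mul]
  exact ⟨rfl, rfl⟩

theorem dirn_near {w d : ℂ} {δ : ℝ} (hd : ‖d‖ = 1) (ht : 0 < t) (h : ‖w - (y + t * d)‖ ≤ δ) :
    ‖dirn y w - d‖ ≤ 2 * δ / t := by
  have e : (t : ℂ) * (dirn y w - d) =
      ((t - ‖w - y‖ : ℝ) : ℂ) * dirn y w + (w - (y + t * d)) := by
    push_cast
    linear_combination -dirn_eq y w
  have h1 := norm_add_le (((t - ‖w - y‖ : ℝ) : ℂ) * dirn y w) (w - (y + t * d))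
  rw [← e, norm_mul, norm_mul, Complex.norm_real, Complex.norm_real, Real.norm_of_nonneg ht.le,
    Real.norm_eq_abs] at h1
  have h2 := abs_norm_sub_norm_le (w - y) (t * d)
  rw [norm_mul, hd, mul_one, Complex.norm_real, Real.norm_of_nonneg ht.le, abs_sub_comm,
    sub_sub] at h2
  have h3 := mul_le_of_le_one_right (abs_nonneg (t - ‖w - y‖)) (norm_dirn_le y w)
  rw [le_div_iff₀ ht]
  linarith

theorem unit_close {e' : ℂ} {κ : ℝ} (he : ‖e‖ = 1) (he' : ‖e'‖ = 1) (hi : |(e' * conj e).im| ≤ κ)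
    (hr : 0 ≤ (e' * conj e).re) : ‖e - e'‖ ≤ 2 * κ := by
  have k0 := (abs_nonneg _).trans hi
  have h1 := sq_Alg e
  have h2 := sq_Alg e'
  have h3 := sq_Alg (e' * conj e)
  have h4 : (e' * conj e).im ^ 2 ≤ κ ^ 2 := sq_le_sq' (abs_le.1 hi).1 (abs_le.1 hi).2
  have h5 : (e' * conj e).re ≤ 1 := (Complex.re_le_norm _).trans (by simp [he, he'])
  have h6 : ‖e - e'‖ ^ 2 = 2 - 2 * (e' * conj e).re := by
    rw [he] at h1
    rw [he'] at h2
    rw [sq_Alg]
    simp only [Complex.sub_re, Complex.sub_im, Complex.mul_re, Complex.conj_re, Complex.conj_im]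
    linear_combination -h1 - h2
  rw [norm_mul, Complex.norm_conj, he, he'] at h3
  refine (abs_le_of_sq_le_sq' ?_ (by positivity)).2
  nlinarith [mul_le_mul_of_nonneg_left h5 hr]

theorem norm_sq_polar {z z' : ℂ} (hz : z ≠ y) (hz' : z' ≠ y) : ‖z - z'‖ ^ 2 =
    (‖z - y‖ - ‖z' - y‖) ^ 2 + ‖z - y‖ * ‖z' - y‖ * ‖dirn y z - dirn y z'‖ ^ 2 := by
  have e : z - z' = ((‖z - y‖ : ℝ) : ℂ) * dirn y z - ((‖z' - y‖ : ℝ) : ℂ) * dirn y z' := by
    linear_combination dirn_eq y z - dirn_eq y z'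
  have h1 := sq_Alg (dirn y z)
  have h2 := sq_Alg (dirn y z')
  rw [norm_dirn hz] at h1
  rw [norm_dirn hz'] at h2
  rw [e, sq_Alg, sq_Alg (dirn y z - dirn y z')]
  simp only [Complex.sub_re, Complex.sub_im, Complex.re_ofReal_mul, Complex.im_ofReal_mul]
  linear_combination (‖z - y‖ * ‖z' - y‖ - ‖z - y‖ ^ 2) * h1 +
    (‖z - y‖ * ‖z' - y‖ - ‖z' - y‖ ^ 2) * h2

theorem im_two {y' τ τ' : ℂ} {κ κ' : ℝ} (hτ : ‖τ‖ = 1) (hτ' : ‖τ'‖ = 1) (hne : y' ≠ y)
    (h : |ht y τ y'| ≤ κ * ‖y' - y‖) (h' : |ht y' τ' y| ≤ κ' * ‖y' - y‖) :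
    |(τ' * conj τ).im| ≤ κ + κ' := by
  have a0 : 0 < ‖y' - y‖ := norm_pos_iff.2 (sub_ne_zero.2 hne)
  have hv := norm_dirn hne
  have e1 : ht y' τ' y = -ht y τ' y' := by
    rw [ht, ht, ← Complex.neg_im, ← neg_mul, neg_sub]
  rw [e1, abs_neg] at h'
  rw [(ht_eq_dirn _ _ _).1, abs_mul, abs_of_pos a0, mul_comm] at h h'
  have b1 := le_of_mul_le_mul_right h a0
  have b2 := le_of_mul_le_mul_right h' a0
  have e2 : τ' * conj τ = dirn y y' * conj τ * conj (dirn y y' * conj τ') := by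
    rw [map_mul, Complex.conj_conj]
    linear_combination -(τ' * conj τ) * unit_Alg hv
  have c1 : |(dirn y y' * conj τ).re| ≤ 1 := (Complex.abs_re_le_norm _).trans (by simp [hv, hτ])
  have c2 : |(dirn y y' * conj τ').re| ≤ 1 := (Complex.abs_re_le_norm _).trans (by simp [hv, hτ'])
  rw [e2]
  generalize dirn y y' * conj τ = A at *
  generalize dirn y y' * conj τ' = A' at *
  rw [Complex.mul_im, Complex.conj_re, Complex.conj_im]
  refine (abs_add_le _ _).trans ?_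
  rw [abs_mul, abs_mul, abs_neg]
  linarith [mul_le_of_le_one_left (abs_nonneg A'.im) c1,
    mul_le_of_le_one_right (abs_nonneg A.im) c2]

theorem angle_of_close {d d' : ℂ} {κ : ℝ} (hd : ‖d‖ = 1) (hd' : ‖d'‖ = 1) (h : ‖d' - d‖ ≤ κ)
    (hκ : κ ≤ 1) : ∃ α : ℝ, |α| ≤ 2 * κ ∧ d' = d * Complex.exp (α * Complex.I) := by
  have hq : ‖d' * conj d‖ = 1 := by simp [hd, hd']
  have e1 : d' * conj d - 1 = (d' - d) * conj d := by linear_combination unit_Alg hd
  have h1 : ‖d' * conj d - 1‖ ≤ κ := by rwa [e1, norm_mul, Complex.norm_conj, hd, mul_one]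
  have e2 := Complex.norm_mul_exp_arg_mul_I (d' * conj d)
  rw [hq, Complex.ofReal_one, one_mul] at e2
  refine ⟨Complex.arg (d' * conj d), ?_, ?_⟩
  · generalize d' * conj d = q at *
    have h2 := (Complex.abs_re_le_norm _).trans h1
    have h3 := (Complex.abs_im_le_norm _).trans h1
    rw [Complex.sub_re, Complex.one_re] at h2
    rw [Complex.sub_im, Complex.one_im, sub_zero] at h3
    have h4 := Real.mul_abs_le_abs_sin
      (Complex.abs_arg_le_pi_div_two_iff.2 (by linarith [(abs_le.1 h2).1] : 0 ≤ q.re))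
    rw [Complex.sin_arg, hq, div_one, div_mul_eq_mul_div, div_le_iff₀ Real.pi_pos] at h4
    nlinarith [Real.pi_le_four, Real.pi_pos, abs_nonneg q.im]
  · rw [e2]
    linear_combination -d' * unit_Alg hd

end

end Vale.Agent.P128.J
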