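import Vale.Agent.P128.J.Defs

/-! P128 J/Alg0 (TASK, owner helper27, notes/P128J.md). Helper names end with `_Alg0`.
Elementary algebra of `ht`, `ab`, `dirn`, `rot` (`e * conj e = 1` from `Complex.mul_conj`, `Complex.normSq_eq_norm_sq`; `Complex.abs_re_le_norm`, `Complex.abs_im_le_norm`).
`unit_close`: `‖e - e'‖² = 2 - 2 re`, `re ≥ re² = 1 - im²`. `dirn_near`: `t ‖dirn - d‖ ≤ |t - a| + ‖a dirn - t d‖`, `a = ‖w - y‖`, `‖dirn‖ ≤ 1`.
`im_two`: with `v = dirn y y'`, `τ' conj τ = (v conj τ) conj (v conj τ')`. `angle_of_close`: `α = arg (d' conj d)`, `re > 0` so `|α| < π/2`, `|sin α| ≤ κ`, `Real.mul_abs_le_abs_sin`. -/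

namespace Vale.Agent.P128.J

open MeasureTheory Set Metric Filter Topology
open scoped ENNReal ComplexConjugate

noncomputable section

variable {Ω K P M : Set ℂ} {ε r s t η ρ B : ℝ} {wk : Prop} {u : ℂ → ℝ} {x y e : ℂ}

theorem one_Alg0 (he : ‖e‖ = 1) : e * conj e = 1 := by
  rw [Complex.mul_conj, Complex.normSq_eq_norm_sq, he]
  simp

theorem nrm_Alg0 (he : ‖e‖ = 1) (z : ℂ) : ‖z * conj e‖ = ‖z‖ := by
  rw [norm_mul, Complex.norm_conj, he, mul_one]

theorem decomp (he : ‖e‖ = 1) (y w : ℂ) :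
    w - y = ((ab y e w : ℂ) + (ht y e w : ℂ) * Complex.I) * e := by
  rw [ab, ht, Complex.re_add_im, mul_assoc, mul_comm (conj e), one_Alg0 he, mul_one]

theorem sq_ab_ht (he : ‖e‖ = 1) (y w : ℂ) : ab y e w ^ 2 + ht y e w ^ 2 = ‖w - y‖ ^ 2 := by
  rw [← nrm_Alg0 he (w - y), ← Complex.normSq_eq_norm_sq, Complex.normSq_apply, ab, ht]
  ring

theorem abs_ab_le (he : ‖e‖ = 1) (y w : ℂ) : |ab y e w| ≤ ‖w - y‖ := by
  exact (Complex.abs_re_le_norm _).trans (nrm_Alg0 he _).le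

theorem abs_ht_le (he : ‖e‖ = 1) (y w : ℂ) : |ht y e w| ≤ ‖w - y‖ := by
  exact (Complex.abs_im_le_norm _).trans (nrm_Alg0 he _).le

theorem norm_le_ab_ht (he : ‖e‖ = 1) (y w : ℂ) : ‖w - y‖ ≤ |ab y e w| + |ht y e w| := by
  exact (nrm_Alg0 he _).ge.trans (Complex.norm_le_abs_re_add_abs_im _)

theorem ab_sub (y e w w' : ℂ) : ab y e w - ab y e w' = ab w' e w := by
  rw [ab, ab, ab, ← Complex.sub_re, ← sub_mul, sub_sub_sub_cancel_right]

theorem ht_sub (y e w w' : ℂ) : ht y e w - ht y e w' = ht w' e w := by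
  rw [ht, ht, ht, ← Complex.sub_im, ← sub_mul, sub_sub_sub_cancel_right]

theorem lip_ab (he : ‖e‖ = 1) (y w w' : ℂ) : |ab y e w - ab y e w'| ≤ ‖w - w'‖ := by
  rw [ab_sub]
  exact abs_ab_le he _ _

theorem lip_ht (he : ‖e‖ = 1) (y w w' : ℂ) : |ht y e w - ht y e w'| ≤ ‖w - w'‖ := by
  rw [ht_sub]
  exact abs_ht_le he _ _

theorem ab_pt (he : ‖e‖ = 1) (y : ℂ) (a b : ℝ) :
    ab y e (y + e * ((a : ℂ) + (b : ℂ) * Complex.I)) = a ∧
      ht y e (y + e * ((a : ℂ) + (b : ℂ) * Complex.I)) = b := by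
  rw [ab, ht, add_sub_cancel_left, mul_right_comm, one_Alg0 he, one_mul]
  simp

theorem ab_line (he : ‖e‖ = 1) (y : ℂ) (t : ℝ) : ab y e (y + t * e) = t := by
  rw [ab, add_sub_cancel_left, mul_assoc, one_Alg0 he, mul_one, Complex.ofReal_re]

theorem ht_line (he : ‖e‖ = 1) (y : ℂ) (t : ℝ) : ht y e (y + t * e) = 0 := by
  rw [ht, add_sub_cancel_left, mul_assoc, one_Alg0 he, mul_one, Complex.ofReal_im]

theorem norm_foot (he : ‖e‖ = 1) (y w : ℂ) : ‖w - (y + (ab y e w : ℝ) * e)‖ = |ht y e w| := by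
  have h : w - (y + (ab y e w : ℝ) * e) = (ht y e w : ℂ) * Complex.I * e := by
    linear_combination decomp he y w
  rw [h, norm_mul, norm_mul, he, Complex.norm_I, Complex.norm_real, mul_one, mul_one,
    Real.norm_eq_abs]

theorem ab_neg (y e w : ℂ) : ab y (-e) w = -ab y e w := by
  rw [ab, ab, map_neg, mul_neg, Complex.neg_re]

theorem ht_neg (y e w : ℂ) : ht y (-e) w = -ht y e w := by
  rw [ht, ht, map_neg, mul_neg, Complex.neg_im]

theorem ht_rot (y e w : ℂ) : ht y e (rot y w) = ab y e w := by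
  rw [ht, ab, rot, add_sub_cancel_left, mul_assoc, Complex.I_mul_im]

theorem norm_rot (y w : ℂ) : ‖rot y w - y‖ = ‖w - y‖ := by
  rw [rot, add_sub_cancel_left, norm_mul, Complex.norm_I, one_mul]

theorem ht_dir (y e e' w : ℂ) : |ht y e w - ht y e' w| ≤ ‖w - y‖ * ‖e - e'‖ := by
  rw [ht, ht, ← Complex.sub_im, ← mul_sub, ← map_sub, ← Complex.norm_conj (e - e'), ← norm_mul]
  exact Complex.abs_im_le_norm _

theorem ab_dir (y e e' w : ℂ) : |ab y e w - ab y e' w| ≤ ‖w - y‖ * ‖e - e'‖ := by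
  rw [ab, ab, ← Complex.sub_re, ← mul_sub, ← map_sub, ← Complex.norm_conj (e - e'), ← norm_mul]
  exact Complex.abs_re_le_norm _

theorem continuous_ab (y e : ℂ) : Continuous (ab y e) := by
  exact Complex.continuous_re.comp ((continuous_id.sub continuous_const).mul continuous_const)

theorem continuous_ht (y e : ℂ) : Continuous (ht y e) := by
  exact Complex.continuous_im.comp ((continuous_id.sub continuous_const).mul continuous_const)

end

end Vale.Agent.P128.J
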