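import Vale.Agent.P128.J.Alg
import Vale.Agent.P128.TA2.Main

/-! P128 J/Arcs (TASK, owner helper27, notes/P128J.md). Helper names end with `_Arcs`.
A circle cut by finitely many points. `circleMap y s` is injective on `Ico (θ 0) (θ 0 + 2π)` (`injOn_circleMap_of_abs_sub_le'` or `circleMap_eq_circleMap_iff`), every point of the sphere is `circleMap y s φ` with `φ` there
(`toIcoMod`, `periodic_circleMap`, `range_circleMap`), and such `φ` lies in `Ico (θ j) (θ (j+1))` for some `j < N`. The open arcs miss `K`, they are path connected (`JoinedIn` through the image of a segment: `IsPathConnected.image`, `Convex.isPathConnected`)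
and `κ` is constant on them (`LC.const`). -/

namespace Vale.Agent.P128.J

open MeasureTheory Set Metric Filter Topology
open scoped ENNReal ComplexConjugate

noncomputable section

variable {Ω K P M : Set ℂ} {ε r s t η ρ B : ℝ} {wk : Prop} {u : ℂ → ℝ} {x y e : ℂ}

theorem slot_Arcs {θ : ℕ → ℝ} {φ : ℝ} (h0 : θ 0 ≤ φ) (n : ℕ) (h : φ < θ n) :
    ∃ j < n, φ ∈ Ico (θ j) (θ (j + 1)) := by
  induction n with
  | zero => exact absurd h h0.not_gt
  | succ n ih =>
    rcases le_or_gt (θ n) φ with h1 | h1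
    · exact ⟨n, n.lt_succ_self, h1, h⟩
    · obtain ⟨j, hj, h2⟩ := ih h1
      exact ⟨j, hj.trans n.lt_succ_self, h2⟩

theorem sep_of_arcs {κ : ℂ → ℝ} {N : ℕ} {θ m : ℕ → ℝ} (hs : 0 < s) (hsr : s < r) (hN : 0 < N)
    (hper : θ N = θ 0 + 2 * Real.pi) (hθ : ∀ j < N, θ j < θ (j + 1) ∧ θ (j + 1) ≤ θ j + 10 / 3)
    (hK : K ∩ sphere y s = (fun j => circleMap y s (θ j)) '' Iio N) (hκ : LC (ball y r \ K) κ)
    (hm : ∀ j < N, m j ∈ Ioo (θ j) (θ (j + 1)))
    (hne : ∀ i < N, ∀ j < N, κ (circleMap y s (m i)) = κ (circleMap y s (m j)) → i = j) :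
    GoodC K κ y s := by
  have mono : ∀ {i j}, i ≤ j → j ≤ N → θ i ≤ θ j := fun {i j} hij => by
    induction hij with
    | refl => exact fun _ => le_rfl
    | step _ ih => exact fun h => (ih (Nat.le_of_succ_le h)).trans (hθ _ h).1.le
  have sph : ∀ φ, circleMap y s φ ∈ sphere y s := circleMap_mem_sphere y hs.le
  have mem : ∀ j < N, circleMap y s (θ j) ∈ K := fun j hj =>
    (hK.symm.subset (mem_image_of_mem _ hj)).1
  have slot : ∀ φ, ∃ j < N, toIcoMod Real.two_pi_pos (θ 0) φ ∈ Ico (θ j) (θ (j + 1)) := fun φ =>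
    slot_Arcs (toIcoMod_mem_Ico Real.two_pi_pos (θ 0) φ).1 N
      (hper ▸ (toIcoMod_mem_Ico Real.two_pi_pos (θ 0) φ).2)
  have off : ∀ j < N, circleMap y s '' Ioo (θ j) (θ (j + 1)) ⊆ sphere y s \ K := by
    rintro j hj _ ⟨φ, hφ, rfl⟩
    refine ⟨sph φ, fun hk => ?_⟩
    obtain ⟨i, hi, e⟩ := hK.subset ⟨hk, sph φ⟩
    have e' : θ i = φ := injOn_circleMap_of_abs_sub_le' (a := θ 0) (b := θ N) hs.ne'
      (by linarith) ⟨mono i.zero_le (le_of_lt hi), (hθ i hi).1.trans_le (mono hi le_rfl)⟩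
      ⟨(mono j.zero_le hj.le).trans hφ.1.le, hφ.2.trans_le (mono hj le_rfl)⟩ e
    rcases le_or_gt i j with h | h
    · exact (mono h hj.le).not_gt (e' ▸ hφ.1)
    · exact (mono h (le_of_lt hi)).not_gt (e' ▸ hφ.2)
  have pc : ∀ j < N, IsPathConnected (circleMap y s '' Ioo (θ j) (θ (j + 1))) := fun j hj =>
    ((convex_Ioo _ _).isPathConnected ⟨_, hm j hj⟩).image (continuous_circleMap y s)
  have arc : ∀ p ∈ sphere y s \ K, ∃ j < N, p ∈ circleMap y s '' Ioo (θ j) (θ (j + 1)) ∧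
      κ p = κ (circleMap y s (m j)) := fun p hp => by
    have h2 := hp.1
    rw [← abs_of_pos hs, ← range_circleMap] at h2
    obtain ⟨φ, rfl⟩ := h2
    obtain ⟨j, hj, h⟩ := slot φ
    have e : circleMap y s (toIcoMod Real.two_pi_pos (θ 0) φ) = circleMap y s φ :=
      (periodic_circleMap y s).sub_zsmul_eq _
    have h3 : circleMap y s φ ∈ circleMap y s '' Ioo (θ j) (θ (j + 1)) :=
      ⟨_, ⟨h.1.lt_of_ne fun e' => hp.2 (by rw [← e, ← e']; exact mem j hj), h.2⟩, e⟩
    exact ⟨j, hj, h3, hκ.const (pc j hj).isConnected.isPreconnected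
      ((off j hj).trans (sdiff_subset_sdiff_left (sphere_subset_closedBall.trans
        (closedBall_subset_ball hsr)))) h3 (mem_image_of_mem _ (hm j hj))⟩
  refine ⟨hK ▸ (finite_Iio N).image _, fun φ => ?_, fun p hp q hq e => ?_⟩
  · obtain ⟨j, hj, h⟩ := slot φ
    rw [toIcoMod] at h
    refine ⟨θ (j + 1) + toIcoDiv Real.two_pi_pos (θ 0) φ • (2 * Real.pi),
      ⟨by linarith [h.2], by linarith [h.1, (hθ j hj).2]⟩, ?_⟩
    rw [(periodic_circleMap y s).zsmul]
    rcases (Nat.succ_le_of_lt hj).eq_or_lt with h1 | h1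
    · rw [show j + 1 = N from h1, hper, periodic_circleMap]
      exact mem 0 hN
    · exact mem _ h1
  · obtain ⟨i, hi, h1, e1⟩ := arc p hp
    obtain ⟨j, hj, h2, e2⟩ := arc q hq
    obtain rfl := hne i hi j hj (e1.symm.trans (e.trans e2))
    exact ((pc i hi).joinedIn p h1 q h2).mono (off i hi)

end

end Vale.Agent.P128.J
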