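import Vale.Agent.P128.J.Alg

/-! P128 J/Arm (TASK, owner helper27, notes/P128J.md). Helper names end with `_Arm`.
`arm_limit`: `ρ_k = ρ (8/9)^k`, `(ρ_k / r)^(1/4) = (ρ / r)^(1/4) q^k`, `q = (8/9)^(1/4) ≤ 49/50` and `q ≥ 1/(103/100)` (compare fourth powers); `cauchySeq_of_le_geometric`, `dist_le_of_le_geometric_of_tendsto`;
for `t ∈ (ρ_(k+1), ρ_k]` (`exists_nat_pow_near_of_lt_one`) compare with `f ρ_k`. `arm_dir`: `f t = dirn y (z t)` for a chosen `z t ∈ A`; `‖e‖ = 1` because the bound tends to `0` (`norm_dirn`). -/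

namespace Vale.Agent.P128.J

open MeasureTheory Set Metric Filter Topology
open scoped ENNReal ComplexConjugate

noncomputable section

variable {Ω K P M : Set ℂ} {ε r s t η ρ B : ℝ} {wk : Prop} {u : ℂ → ℝ} {x y e : ℂ}

theorem q_Arm : 51 / 100 ≤ (8 / 9 : ℝ) ^ (1 / 4 : ℝ) ∧ (8 / 9 : ℝ) ^ (1 / 4 : ℝ) ≤ 49 / 50 := by
  have h0 : 0 ≤ (8 / 9 : ℝ) ^ (1 / 4 : ℝ) := by positivity
  have h1 : ((8 / 9 : ℝ) ^ (1 / 4 : ℝ)) ^ 4 = 8 / 9 := by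
    rw [← Real.rpow_natCast, ← Real.rpow_mul (by norm_num)]
    norm_num
  constructor
  · rw [← pow_le_pow_iff_left₀ (by norm_num) h0 (four_ne_zero), h1]
    norm_num
  · rw [← pow_le_pow_iff_left₀ h0 (by norm_num) (four_ne_zero), h1]
    norm_num

theorem mono_Arm (hr : 0 < r) (hB : 0 ≤ B) (hs : 0 ≤ s) (hst : s ≤ t) :
    B * (s / r) ^ (1 / 4 : ℝ) ≤ B * (t / r) ^ (1 / 4 : ℝ) :=
  mul_le_mul_of_nonneg_left (Real.rpow_le_rpow (by positivity)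
    (div_le_div_of_nonneg_right hst hr.le) (by norm_num)) hB

theorem lim_Arm (r B : ℝ) :
    Tendsto (fun t : ℝ => B * (t / r) ^ (1 / 4 : ℝ)) (𝓝[>] 0) (𝓝 0) := by
  have h : Continuous fun t : ℝ => B * (t / r) ^ (1 / 4 : ℝ) :=
    continuous_const.mul ((continuous_id.div_const r).rpow_const fun _ => Or.inr (by norm_num))
  have h1 := h.tendsto 0
  rw [zero_div, Real.zero_rpow (by norm_num), mul_zero] at h1
  exact h1.mono_left nhdsWithin_le_nhds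

theorem arm_limit {f : ℝ → ℂ} (hρ : 0 < ρ) (hr : 0 < r) (hB : 0 ≤ B)
    (h : ∀ t ∈ Ioc 0 ρ, ∀ t' ∈ Icc (8 / 9 * t) t, ‖f t - f t'‖ ≤ B * (t / r) ^ (1 / 4 : ℝ)) :
    ∃ e, ∀ t ∈ Ioc 0 ρ, ‖f t - e‖ ≤ 100 * B * (t / r) ^ (1 / 4 : ℝ) := by
  obtain ⟨q1, q2⟩ := q_Arm
  have e1 : ∀ k : ℕ, (ρ * (8 / 9) ^ k / r) ^ (1 / 4 : ℝ) =
      (ρ / r) ^ (1 / 4 : ℝ) * ((8 / 9 : ℝ) ^ (1 / 4 : ℝ)) ^ k := fun k => by
    rw [mul_div_right_comm, Real.mul_rpow (by positivity) (by positivity),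
      ← Real.rpow_natCast, ← Real.rpow_natCast, ← Real.rpow_mul (by norm_num),
      ← Real.rpow_mul (by norm_num), mul_comm (k : ℝ)]
  generalize (8 / 9 : ℝ) ^ (1 / 4 : ℝ) = q at q1 q2 e1
  have m1 : ∀ k : ℕ, ρ * (8 / 9) ^ k ∈ Ioc 0 ρ := fun k =>
    ⟨by positivity, mul_le_of_le_one_right hρ.le (pow_le_one₀ (by norm_num) (by norm_num))⟩
  have hd : ∀ k : ℕ, dist (f (ρ * (8 / 9) ^ k)) (f (ρ * (8 / 9) ^ (k + 1))) ≤
      B * (ρ / r) ^ (1 / 4 : ℝ) * q ^ k := fun k => by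
    rw [dist_eq_norm, mul_assoc, ← e1]
    refine h _ (m1 k) _ ⟨le_of_eq (by ring), ?_⟩
    rw [pow_succ]
    nlinarith [(m1 k).1]
  have hq : q < 1 := by linarith
  obtain ⟨e, he⟩ := cauchySeq_tendsto_of_complete (cauchySeq_of_le_geometric q _ hq hd)
  refine ⟨e, fun t ht => ?_⟩
  obtain ⟨k, k1, k2⟩ := exists_nat_pow_near_of_lt_one (div_pos ht.1 hρ)
    ((div_le_one hρ).2 ht.2) (by norm_num : (0 : ℝ) < 8 / 9) (by norm_num)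
  rw [lt_div_iff₀' hρ] at k1
  rw [div_le_iff₀' hρ] at k2
  have a1 := dist_le_of_le_geometric_of_tendsto q _ hq hd he k
  have a2 := h _ (m1 k) t ⟨by rw [pow_succ] at k1; linarith, k2⟩
  have a3 := mono_Arm hr hB (m1 (k + 1)).1.le k1.le
  rw [e1, ← mul_assoc] at a2 a3
  rw [pow_succ, ← mul_assoc] at a3
  have a0 : 0 ≤ B * (ρ / r) ^ (1 / 4 : ℝ) * q ^ k := (dist_nonneg).trans (hd k)
  rw [dist_eq_norm] at a1
  generalize B * (ρ / r) ^ (1 / 4 : ℝ) * q ^ k = c at a0 a1 a2 a3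
  have a4 : c / (1 - q) ≤ 50 * c := by
    rw [div_le_iff₀ (by linarith)]
    nlinarith
  have a5 := norm_sub_le_norm_sub_add_norm_sub (f t) (f (ρ * (8 / 9) ^ k)) e
  rw [norm_sub_rev] at a2
  rw [mul_assoc]
  nlinarith

theorem arm_dir {A : Set ℂ} (hρ : 0 < ρ) (hr : 0 < r) (hB : 0 ≤ B)
    (hex : ∀ t ∈ Ioc 0 ρ, ∃ z ∈ A, ‖z - y‖ = t)
    (h : ∀ z ∈ A, ∀ z' ∈ A, ‖z - y‖ ∈ Ioc 0 ρ → ‖z' - y‖ ∈ Icc (8 / 9 * ‖z - y‖) ‖z - y‖ →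
      ‖dirn y z - dirn y z'‖ ≤ B * (‖z - y‖ / r) ^ (1 / 4 : ℝ)) :
    ∃ e, ‖e‖ = 1 ∧ ∀ z ∈ A, ‖z - y‖ ∈ Ioc 0 ρ →
      ‖dirn y z - e‖ ≤ 101 * B * (‖z - y‖ / r) ^ (1 / 4 : ℝ) := by
  choose! z hz hz' using hex
  obtain ⟨e, he⟩ := arm_limit (f := fun t => dirn y (z t)) hρ hr hB fun t ht t' ht' => by
    have h1 : t' ∈ Ioc 0 ρ := ⟨by linarith [ht.1, ht'.1], ht'.2.trans ht.2⟩
    have h2 := h _ (hz t ht) _ (hz t' h1)
    rw [hz' t ht, hz' t' h1] at h2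
    exact h2 ht ht'
  refine ⟨e, ?_, fun w hw hw' => ?_⟩
  · have h1 : |1 - ‖e‖| ≤ 0 := by
      refine ge_of_tendsto (lim_Arm r (100 * B)) ?_
      filter_upwards [Ioc_mem_nhdsGT hρ] with t ht
      have h2 : ‖dirn y (z t)‖ = 1 := by
        rw [dirn, norm_div, Complex.norm_real, norm_norm, hz' t ht, div_self ht.1.ne']
      have h3 := (abs_norm_sub_norm_le _ _).trans (he t ht)
      rwa [h2] at h3
    linarith [abs_nonpos_iff.1 h1]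
  · have h1 := h w hw _ (hz _ hw') hw' (by rw [hz' _ hw']; exact ⟨by linarith [hw'.1], le_rfl⟩)
    have h2 := he _ hw'
    have h3 := norm_sub_le_norm_sub_add_norm_sub (dirn y w) (dirn y (z ‖w - y‖)) e
    linarith

theorem tendsto_q (hr : 0 < r) (B : ℝ) :
    Tendsto (fun t : ℝ => B * (t / r) ^ (1 / 4 : ℝ)) (𝓝[>] 0) (𝓝 0) := by
  have _ := hr
  exact lim_Arm r B

theorem q_mono (hr : 0 < r) (hB : 0 ≤ B) (hs : 0 ≤ s) (hst : s ≤ t) :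
    B * (s / r) ^ (1 / 4 : ℝ) ≤ B * (t / r) ^ (1 / 4 : ℝ) := mono_Arm hr hB hs hst

theorem q_sq {a : ℝ} (ha : 0 ≤ a) : (a ^ (1 / 4 : ℝ)) ^ 2 = √a := by
  rw [← Real.rpow_natCast, ← Real.rpow_mul ha, Real.sqrt_eq_rpow]
  norm_num

end

end Vale.Agent.P128.J
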