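import Vale.Agent.P128.J.Circ0

/-! P128 J/Circ (TASK, owner helper27, notes/P128J.md). Helper names end with `_Circ`.
Circles around points of `K`. `meet`: the half circle `φ ↦ y + t e exp(φ I)`, `φ ∈ [-π/2, π/2]`, is preconnected, starts in `M`, ends in `P`; if it missed `K` it would lie in `P ∪ M`. On `K` one has `|ht| ≤ η s < t`, so `ab ≠ 0` (`sq_ab_ht`).
`two`, `uq`: `meet` for `h` and for `h.symm`, `Side.neg`; `Set.encard_pair`, `Set.encard_le_encard`, three different points give `3 ≤ encard`.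
`good`: `K ∩ sphere = {a, b}` with `a` right, `b` left; `unit_close`, `angle_of_close` give `a = circleMap y s (arg e + α)`, `b = circleMap y s (arg e + π + β)`, `|α|, |β| ≤ 4η`; `sep_of_arcs` with `N = 2`, `m 0 = arg e + π/2`, `m 1 = arg e + 3π/2`.
`arm`: `ht_rot`, `norm_rot`, `|ab| ≥ ‖z - y‖ - |ht| > η s`. -/

namespace Vale.Agent.P128.J

open MeasureTheory Set Metric Filter Topology
open scoped ENNReal ComplexConjugate

noncomputable section

variable {Ω K P M : Set ℂ} {ε r s t η ρ B : ℝ} {wk : Prop} {u : ℂ → ℝ} {x y e : ℂ}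

theorem circ_Circ (he : ‖e‖ = 1) (y : ℂ) (s α : ℝ) :
    circleMap y s (e.arg + α) = y + s * (e * Complex.exp (α * Complex.I)) := by
  have h := Complex.norm_mul_exp_arg_mul_I e
  rw [he, Complex.ofReal_one, one_mul] at h
  rw [circleMap, Complex.ofReal_add, add_mul, Complex.exp_add, h]

theorem ang_Circ (h : Fl K y s η e) (hη : η ≤ 1 / 100) (hs : 0 < s) {a : ℂ} (ha : a ∈ K)
    (h1 : ‖a - y‖ = s) (h2 : 0 < ab y e a) :
    ∃ α : ℝ, |α| ≤ 1 / 25 ∧ a = y + s * (e * Complex.exp (α * Complex.I)) := by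
  have hne : a ≠ y := by
    rintro rfl
    rw [sub_self, norm_zero] at h1
    exact hs.ne h1
  obtain ⟨e1, e2⟩ := ht_eq_dirn y e a
  rw [h1] at e1 e2
  have h3 := h.up a ha h1.le
  rw [e1, abs_mul, abs_of_pos hs, mul_comm] at h3
  have h4 := unit_close h.unit (norm_dirn hne) (le_of_mul_le_mul_right h3 hs)
    (le_of_lt (pos_of_mul_pos_left (by rw [e2, mul_comm] at h2; exact h2) hs.le))
  rw [norm_sub_rev] at h4
  obtain ⟨α, h5, h6⟩ := angle_of_close h.unit (norm_dirn hne) h4 (by linarith)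
  refine ⟨α, by linarith, ?_⟩
  rw [← h6, ← h1, ← dirn_eq]
  ring

theorem Lab.good (h : Lab K x r η P M) (hη : η ≤ 1 / 100) (hy : y ∈ K) (hs : 0 < s) (hsρ : s < ρ)
    (hρ : ‖y - x‖ + ρ ≤ r) (hc : cnt K y s = (2 : ℕ)) : GoodC K (P.indicator 1) y s := by
  have hr : ‖y - x‖ + s ≤ r := by linarith
  obtain ⟨e, hS⟩ := h.side y hy s hs hr
  have he := hS.fl.unit
  obtain ⟨a, ha, ha1, ha2⟩ := h.meet hη hS hs hr (half_le_self hs.le) le_rfl
  obtain ⟨b, hb, hb1, hb2⟩ := h.symm.meet hη hS.neg hs hr (half_le_self hs.le) le_rfl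
  have hab : a ≠ b := by
    rintro rfl
    rw [ab_neg] at hb2
    linarith
  have hc' : (K ∩ sphere y s).encard = 2 := by
    unfold cnt at hc
    exact_mod_cast hc
  have hK : K ∩ sphere y s = {a, b} := by
    refine ((finite_of_encard_eq_coe (k := 2) hc').eq_of_subset_of_encard_le' ?_ ?_).symm
    · rintro w (rfl | rfl)
      · exact ⟨ha, mem_sphere_iff_norm.2 ha1⟩
      · exact ⟨hb, mem_sphere_iff_norm.2 hb1⟩
    · rw [hc', encard_pair hab]
  obtain ⟨α, hα, ea⟩ := ang_Circ hS.fl hη hs ha ha1 ha2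
  obtain ⟨β, hβ, eb⟩ := ang_Circ hS.fl.neg hη hs hb hb1 hb2
  have ea' : a = circleMap y s (e.arg + α) := by rw [circ_Circ he]; exact ea
  have eb' : b = circleMap y s (e.arg + (Real.pi + β)) := by
    rw [circ_Circ he, eb, Complex.ofReal_add, add_mul, Complex.exp_add, Complex.exp_pi_mul_I]
    ring
  have hα' := abs_le.1 hα
  have hβ' := abs_le.1 hβ
  have p1 := Real.pi_gt_three
  have p2 := Real.pi_lt_d2
  have hηs : η * s < s := by nlinarith
  have m0 : circleMap y s (e.arg + Real.pi / 2) ∈ P := by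
    have e1 : circleMap y s (e.arg + Real.pi / 2) = y + e * (((0 : ℝ) : ℂ) + (s : ℂ) * Complex.I) := by
      rw [circ_Circ he]
      push_cast
      rw [Complex.exp_pi_div_two_mul_I]
      ring
    refine hS.top _ (by rw [circleMap_sub_center, norm_circleMap_zero, abs_of_pos hs]) ?_
    rw [e1, (ab_pt he y 0 s).2]
    exact hηs
  have m1 : circleMap y s (e.arg + (Real.pi + Real.pi / 2)) ∉ P := by
    have e1 : circleMap y s (e.arg + (Real.pi + Real.pi / 2)) =
        y + e * (((0 : ℝ) : ℂ) + ((-s : ℝ) : ℂ) * Complex.I) := by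
      rw [circ_Circ he]
      push_cast
      rw [add_mul, Complex.exp_add, Complex.exp_pi_div_two_mul_I, Complex.exp_pi_mul_I]
      ring
    refine disjoint_right.1 h.dPM
      (hS.bot _ (by rw [circleMap_sub_center, norm_circleMap_zero, abs_of_pos hs]) ?_)
    rw [e1, (ab_pt he y 0 (-s)).2]
    linarith
  have two : ∀ j : ℕ, j < 2 → j = 0 ∨ j = 1 := fun j hj => by omega
  refine sep_of_arcs (N := 2) (r := ρ)
    (θ := fun j => if j = 0 then e.arg + α else if j = 1 then e.arg + (Real.pi + β)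
      else e.arg + α + 2 * Real.pi)
    (m := fun j => if j = 0 then e.arg + Real.pi / 2 else e.arg + (Real.pi + Real.pi / 2))
    hs hsρ two_pos (by simp) ?_ ?_ (h.lc hρ) ?_ ?_
  · intro j hj
    rcases two j hj with rfl | rfl
    · norm_num
      constructor <;> linarith
    · norm_num
      constructor <;> linarith
  · rw [hK]
    ext w
    constructor
    · rintro (rfl | rfl)
      · exact ⟨0, by simp, by simpa using ea'.symm⟩
      · exact ⟨1, by simp, by simpa using eb'.symm⟩
    · rintro ⟨j, hj, rfl⟩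
      rcases two j hj with rfl | rfl
      · exact Or.inl (by simpa using ea'.symm)
      · exact Or.inr (by simpa using eb'.symm)
  · intro j hj
    rcases two j hj with rfl | rfl
    · norm_num
      constructor <;> linarith
    · norm_num
      constructor <;> linarith
  · intro i hi j hj hij
    rcases two i hi with rfl | rfl <;> rcases two j hj with rfl | rfl
    · rfl
    · simp [m0, m1] at hij
    · simp [m0, m1] at hij
    · rfl

theorem Lab.arm (h : Lab K x r η P M) (hη : η ≤ 1 / 100) (hS : Side K P M y s η e) (hs : 0 < s)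
    {z : ℂ} (hz : z ∈ K) (h1 : s / 2 ≤ ‖z - y‖) (h2 : ‖z - y‖ ≤ s) :
    (rot y z ∈ P ↔ 0 < ab y e z) ∧ (rot y z ∈ M ↔ ab y e z < 0) ∧ ab y e z ≠ 0 := by
  have h3 := hS.fl.up z hz h2
  have h4 := norm_le_ab_ht hS.fl.unit y z
  have h5 : η * s < |ab y e z| := by nlinarith
  have h0 : 0 ≤ η * s := (abs_nonneg _).trans h3
  have hn : ‖rot y z - y‖ ≤ s := by rw [norm_rot]; exact h2
  rcases lt_abs.1 h5 with h6 | h6
  · have hP := hS.top _ hn (by rw [ht_rot]; exact h6)
    exact ⟨iff_of_true hP (by linarith), iff_of_false (disjoint_left.1 h.dPM hP) (by linarith),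
      by linarith⟩
  · have hM := hS.bot _ hn (by rw [ht_rot]; linarith)
    exact ⟨iff_of_false (disjoint_right.1 h.dPM hM) (by linarith), iff_of_true hM (by linarith),
      by linarith⟩

end

end Vale.Agent.P128.J
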