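import Vale.Agent.P128.J.Lab
import Vale.Agent.P128.J.Arcs

/-! P128 J/Circ0 (TASK, owner helper27, notes/P128J.md). Helper names end with `_Circ0`.
Circles around points of `K`. `meet`: the half circle `φ ↦ y + t e exp(φ I)`, `φ ∈ [-π/2, π/2]`, is preconnected, starts in `M`, ends in `P`; if it missed `K` it would lie in `P ∪ M`. On `K` one has `|ht| ≤ η s < t`, so `ab ≠ 0` (`sq_ab_ht`).
`two`, `uq`: `meet` for `h` and for `h.symm`, `Side.neg`; `Set.encard_pair`, `Set.encard_le_encard`, three different points give `3 ≤ encard`.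
`good`: `K ∩ sphere = {a, b}` with `a` right, `b` left; `unit_close`, `angle_of_close` give `a = circleMap y s (arg e + α)`, `b = circleMap y s (arg e + π + β)`, `|α|, |β| ≤ 4η`; `sep_of_arcs` with `N = 2`, `m 0 = arg e + π/2`, `m 1 = arg e + 3π/2`.
`arm`: `ht_rot`, `norm_rot`, `|ab| ≥ ‖z - y‖ - |ht| > η s`. -/

namespace Vale.Agent.P128.J

open MeasureTheory Set Metric Filter Topology
open scoped ENNReal ComplexConjugate

noncomputable section

variable {Ω K P M : Set ℂ} {ε r s t η ρ B : ℝ} {wk : Prop} {u : ℂ → ℝ} {x y e : ℂ}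

theorem Lab.meet (h : Lab K x r η P M) (hη : η ≤ 1 / 100) (hS : Side K P M y s η e) (hs : 0 < s)
    (hr : ‖y - x‖ + s ≤ r) (h1 : s / 2 ≤ t) (h2 : t ≤ s) :
    ∃ a ∈ K, ‖a - y‖ = t ∧ 0 < ab y e a := by
  have he := hS.fl.unit
  have ht0 : 0 < t := by linarith
  have hηs : η * s < t := by nlinarith
  obtain ⟨γ, hγ⟩ : ∃ γ : ℝ → ℂ, γ = fun φ =>
      y + e * (((t * Real.cos φ : ℝ) : ℂ) + ((t * Real.sin φ : ℝ) : ℂ) * Complex.I) := ⟨_, Eq.refl _⟩
  have hc : Continuous γ := by rw [hγ]; fun_prop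
  have ha : ∀ φ, ab y e (γ φ) = t * Real.cos φ := fun φ => by rw [hγ]; exact (ab_pt he y _ _).1
  have hh : ∀ φ, ht y e (γ φ) = t * Real.sin φ := fun φ => by rw [hγ]; exact (ab_pt he y _ _).2
  have hn : ∀ φ, ‖γ φ - y‖ = t := fun φ => by
    have h3 := sq_ab_ht he y (γ φ)
    rw [ha, hh] at h3
    refine (pow_left_inj₀ (norm_nonneg _) ht0.le two_ne_zero).1 ?_
    rw [← h3]
    linear_combination t ^ 2 * Real.cos_sq_add_sin_sq φ
  have hpi := Real.pi_pos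
  have hP : γ (Real.pi / 2) ∈ P := hS.top _ ((hn _).le.trans h2) (by
    rw [hh, Real.sin_pi_div_two, mul_one]
    exact hηs)
  have hM : γ (-(Real.pi / 2)) ∈ M := hS.bot _ ((hn _).le.trans h2) (by
    rw [hh, Real.sin_neg, Real.sin_pi_div_two]
    linarith)
  have hex : ∃ φ ∈ Icc (-(Real.pi / 2)) (Real.pi / 2), γ φ ∈ K := by
    by_contra hne
    have hpre : IsPreconnected (γ '' Icc (-(Real.pi / 2)) (Real.pi / 2)) :=
      isPreconnected_Icc.image _ hc.continuousOn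
    have hsub : γ '' Icc (-(Real.pi / 2)) (Real.pi / 2) ⊆ P ∪ M := by
      rintro _ ⟨φ, hφ, rfl⟩
      refine h.cover _ ?_ fun hK => hne ⟨φ, hφ, hK⟩
      have h3 := norm_sub_le_norm_sub_add_norm_sub (γ φ) y x
      linarith [hn φ]
    have h4 := hpre.subset_left_of_subset_union h.oP h.oM h.dPM hsub
      ⟨_, mem_image_of_mem γ (right_mem_Icc.2 (by linarith)), hP⟩
    exact Set.disjoint_left.1 h.dPM (h4 (mem_image_of_mem γ (left_mem_Icc.2 (by linarith)))) hM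
  obtain ⟨φ, hφ, hK⟩ := hex
  refine ⟨γ φ, hK, hn φ, ?_⟩
  have h5 : 0 ≤ ab y e (γ φ) := by
    rw [ha]
    exact mul_nonneg ht0.le (Real.cos_nonneg_of_mem_Icc hφ)
  refine lt_of_le_of_ne h5 fun h0 => ?_
  have h6 := norm_le_ab_ht he y (γ φ)
  have h7 := hS.fl.up _ hK ((hn φ).le.trans h2)
  rw [← h0, abs_zero, hn] at h6
  linarith

theorem Lab.two (h : Lab K x r η P M) (hη : η ≤ 1 / 100) (hy : y ∈ K) (ht : 0 < t)
    (hr : ‖y - x‖ + t ≤ r) : ((2 : ℕ) : ℝ≥0∞) ≤ cnt K y t := by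
  obtain ⟨e, hS⟩ := h.side y hy t ht hr
  obtain ⟨a, haK, han, ha⟩ := h.meet hη hS ht hr (by linarith : t / 2 ≤ t) le_rfl
  obtain ⟨b, hbK, hbn, hb⟩ := h.symm.meet hη hS.neg ht hr (by linarith : t / 2 ≤ t) le_rfl
  rw [ab_neg] at hb
  have hab : a ≠ b := fun h0 => by
    rw [h0] at ha
    linarith
  have hsub : ({a, b} : Set ℂ) ⊆ K ∩ sphere y t := by
    rintro w (rfl | rfl)
    · exact ⟨haK, mem_sphere_iff_norm.2 han⟩
    · exact ⟨hbK, mem_sphere_iff_norm.2 hbn⟩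
  have h3 := Set.encard_le_encard hsub
  rw [Set.encard_pair hab] at h3
  have h4 := ENat.toENNReal_le.2 h3
  simpa [cnt] using h4

theorem Lab.uq (h : Lab K x r η P M) (hη : η ≤ 1 / 100) (hS : Side K P M y s η e) (hs : 0 < s)
    (hr : ‖y - x‖ + s ≤ r) (h1 : s / 2 ≤ t) (h2 : t ≤ s) (hc : cnt K y t = (2 : ℕ)) :
    Uq K y e t := by
  intro w hw w' hw' hn hn' ha ha'
  obtain ⟨b, hbK, hbn, hb⟩ := h.symm.meet hη hS.neg hs hr h1 h2
  rw [ab_neg] at hb
  by_contra hne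
  have hb1 : w ≠ b := fun h0 => by
    rw [h0] at ha
    linarith
  have hb2 : w' ≠ b := fun h0 => by
    rw [h0] at ha'
    linarith
  have hsub : ({w, w', b} : Set ℂ) ⊆ K ∩ sphere y t := by
    rintro z (rfl | rfl | rfl)
    · exact ⟨hw, mem_sphere_iff_norm.2 hn⟩
    · exact ⟨hw', mem_sphere_iff_norm.2 hn'⟩
    · exact ⟨hbK, mem_sphere_iff_norm.2 hbn⟩
  have h3 := Set.encard_le_encard hsub
  rw [Set.encard_eq_three.2 ⟨w, w', b, hne, hb1, hb2, Eq.refl _⟩] at h3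
  have h4 := ENat.toENNReal_le.2 h3
  have h5 : ((K ∩ sphere y t).encard : ℝ≥0∞) = (2 : ℕ) := hc
  rw [h5] at h4
  norm_num at h4

end

end Vale.Agent.P128.J
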