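import Vale.Agent.P128.J.Decay0

/-! P128 J/Decay (TASK, owner helper27, notes/P128J.md). Helper names end with `_Decay`.
Energy decay. `C` from `DI1` with `η = 1/100`, `ω = 10/3`: `ω / (2π) + 1/100 ≤ 11/20` (`Real.pi_gt_d2`). `half_step`: `T5` at radius `s` with `τ = 1/2`, `κ = 11/20`, `E = C ε`, `m = 10`, `η = 1/100`
(`1/t ≤ 2/s` on the bad set); `exp (-(18/11) (log 2 - 1/100)) ≤ exp (-(3/2) log 2) = 1 / (2 √2)` by `Real.log_two_gt_d9`; restrict the a.e. statement with `ae_restrict_of_ae_restrict_of_subset`; finiteness from `AM0.upper_real`.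
`decay`: `A = max 12 (30 C)`; induction on `k` for `s ∈ [r / 2^(k+1), r / 2^k]`, base `D ≤ 8 s` (`AM0.upper_real`), `ε √r ≤ 1` (`AM0.small`). -/

namespace Vale.Agent.P128.J

open MeasureTheory Set Metric Filter Topology
open scoped ENNReal ComplexConjugate

noncomputable section

variable {Ω K P M : Set ℂ} {ε r s t η ρ B : ℝ} {wk : Prop} {u : ℂ → ℝ} {x y e : ℂ}

theorem decay : ∃ A : ℝ, 0 < A ∧ ∀ (Ω : Set ℂ) (ε : ℝ) (wk : Prop) (u : ℂ → ℝ) (K : Set ℂ),
    AM0 Ω ε wk u K → ∀ (y : ℂ) (r : ℝ), 0 < r → closedBall y r ⊆ Ω → ∀ κ : ℂ → ℝ,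
    LC (ball y r \ K) κ → ∀ G : Set ℝ, MeasurableSet G → (∀ s ∈ G, s ∈ Ioo 0 r → GoodC K κ y s) →
    (∀ s ∈ Ioc 0 r, volume (Ioo (s / 2) s \ G) ≤ ENNReal.ofReal (s / 200)) →
    ∀ s ∈ Ioc 0 r, D u K y s ≤ A * s * √(s / r) := by
  obtain ⟨C, hC, H⟩ := half_step
  refine ⟨max 12 (30 * C), lt_max_of_lt_left (by norm_num), ?_⟩
  intro Ω ε wk u K h y r hr hB κ hκ G hG h1 h2
  have hA := le_max_left 12 (30 * C)
  have hA' := le_max_right 12 (30 * C)
  generalize max 12 (30 * C) = A at hA hA'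
  have base : ∀ s ∈ Ioc 0 r, r / 2 ≤ s → D u K y s ≤ A * s * √(s / r) := fun s hs h3 => by
    obtain ⟨-, -, -, -, -, -, a1, a2, a3⟩ :=
      h.upper_real hs.1 ((closedBall_subset_closedBall hs.2).trans hB)
    have a4 : 2 / 3 ≤ √(s / r) := Real.le_sqrt_of_sq_le (by
      rw [le_div_iff₀ hr]
      linarith)
    have a5 : 12 * s * (2 / 3) ≤ A * s * √(s / r) := by
      have := hs.1
      gcongr
    linarith
  have q2 : √2 ≤ 3 / 2 := Real.sqrt_le_iff.2 ⟨by norm_num, by norm_num⟩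
  have q0 : 0 < √2 := Real.sqrt_pos.2 two_pos
  have ind : ∀ k : ℕ, ∀ s ∈ Ioc 0 r, r / 2 ^ (k + 1) ≤ s → D u K y s ≤ A * s * √(s / r) := by
    intro k
    induction k with
    | zero => simpa using base
    | succ k ih =>
      intro s hs h3
      rcases le_total (r / 2) s with h4 | h4
      · exact base s hs h4
      have h0 := hs.1
      have hs' : 2 * s ∈ Ioc 0 r := ⟨by linarith, by linarith⟩
      have h5 := H Ω ε wk u K h y r hr hB κ hκ G hG h1 _ hs' (h2 _ hs')
      rw [mul_div_cancel_left₀ s two_ne_zero] at h5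
      have hq : 0 ≤ √(s / r) := Real.sqrt_nonneg _
      rcases h5 with h5 | h5
      · have e : √(2 * s) = √2 * (√(s / r) * √r) := by
          rw [← Real.sqrt_mul (by positivity), div_mul_cancel₀ _ hr.ne', Real.sqrt_mul zero_le_two]
        have h6 : √2 * (ε * √r) ≤ 3 / 2 * 1 :=
          mul_le_mul q2 (h.small y r hr hB) (mul_nonneg h.eps (Real.sqrt_nonneg _)) (by norm_num)
        calc D u K y s ≤ 20 * C * (s * √(s / r)) * (√2 * (ε * √r)) := by
              rw [e] at h5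
              linarith
          _ ≤ 20 * C * (s * √(s / r)) * (3 / 2 * 1) := by gcongr
          _ = 30 * C * s * √(s / r) := by ring
          _ ≤ _ := by gcongr
      · have h6 := ih _ hs' (by
          rw [pow_succ _ (k + 1), ← div_div] at h3
          linarith)
        rw [mul_div_assoc, Real.sqrt_mul zero_le_two] at h6
        refine le_of_mul_le_mul_left (a := 2 * √2) (h5.trans (h6.trans_eq (by ring))) (by positivity)
  intro s hs
  obtain ⟨k, hk⟩ := pow_unbounded_of_one_lt (r / s) (one_lt_two (α := ℝ))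
  refine ind k s hs ?_
  rw [div_lt_iff₀ hs.1] at hk
  rw [div_le_iff₀ (by positivity), pow_succ]
  nlinarith [hs.1, pow_pos (two_pos (α := ℝ)) k]

end

end Vale.Agent.P128.J
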