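import Vale.Agent.P128.J.Defs
import Vale.Agent.P128.TB.Main

/-! P128 J/Decay0 (TASK, owner helper27, notes/P128J.md). Helper names end with `_Decay0`.
Energy decay. `C` from `DI1` with `η = 1/100`, `ω = 10/3`: `ω / (2π) + 1/100 ≤ 11/20` (`Real.pi_gt_d2`). `half_step`: `T5` at radius `s` with `τ = 1/2`, `κ = 11/20`, `E = C ε`, `m = 10`, `η = 1/100`
(`1/t ≤ 2/s` on the bad set); `exp (-(18/11) (log 2 - 1/100)) ≤ exp (-(3/2) log 2) = 1 / (2 √2)` by `Real.log_two_gt_d9`; restrict the a.e. statement with `ae_restrict_of_ae_restrict_of_subset`; finiteness from `AM0.upper_real`.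
`decay`: `A = max 12 (30 C)`; induction on `k` for `s ∈ [r / 2^(k+1), r / 2^k]`, base `D ≤ 8 s` (`AM0.upper_real`), `ε √r ≤ 1` (`AM0.small`). -/

namespace Vale.Agent.P128.J

open MeasureTheory Set Metric Filter Topology
open scoped ENNReal ComplexConjugate

noncomputable section

variable {Ω K P M : Set ℂ} {ε r s t η ρ B : ℝ} {wk : Prop} {u : ℂ → ℝ} {x y e : ℂ}

theorem exp_Decay0 :
    2 * √2 * Real.exp (-((1 - 1 / 10) / (11 / 20)) * (Real.log (1 / (1 / 2)) - 1 / 100)) ≤ 1 := by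
  have h2 : (1 : ℝ) / (1 / 2) = 2 := by norm_num
  have hl := Real.log_two_gt_d9
  have h3 : 2 * √2 = Real.exp (3 / 2 * Real.log 2) := by
    have e1 : Real.exp (3 / 2 * Real.log 2) = Real.exp (Real.log 2) * Real.exp (Real.log 2 / 2) := by
      rw [← Real.exp_add]; congr 1; ring
    rw [e1, Real.exp_log two_pos, Real.exp_half, Real.exp_log two_pos]
  rw [h2, h3, ← Real.exp_add, Real.exp_le_one_iff]
  linarith

theorem bad_Decay0 {G : Set ℝ} (hG : MeasurableSet G) (hs : 0 < s)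
    (hv : volume (Ioo (s / 2) s \ G) ≤ ENNReal.ofReal (s / 200)) :
    ∫⁻ t in Ioo (1 / 2 * s) s \ G, ENNReal.ofReal (1 / t) ≤ ENNReal.ofReal (1 / 100) := by
  have e : 1 / 2 * s = s / 2 := by ring
  rw [e]
  calc ∫⁻ t in Ioo (s / 2) s \ G, ENNReal.ofReal (1 / t)
      ≤ ∫⁻ _ in Ioo (s / 2) s \ G, ENNReal.ofReal (2 / s) := by
        refine setLIntegral_mono' (measurableSet_Ioo.diff hG) fun t ht => ?_
        refine ENNReal.ofReal_le_ofReal ?_
        have h1 : s / 2 < t := ht.1.1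
        have h2 : 0 < t := by linarith
        rw [div_le_div_iff₀ h2 hs]
        linarith
    _ = ENNReal.ofReal (2 / s) * volume (Ioo (s / 2) s \ G) := by
        rw [setLIntegral_const]
    _ ≤ ENNReal.ofReal (2 / s) * ENNReal.ofReal (s / 200) := by gcongr
    _ = ENNReal.ofReal (1 / 100) := by
        rw [← ENNReal.ofReal_mul (by positivity)]
        congr 1
        field_simp
        norm_num

theorem half_step : ∃ C : ℝ, 0 < C ∧ ∀ (Ω : Set ℂ) (ε : ℝ) (wk : Prop) (u : ℂ → ℝ) (K : Set ℂ),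
    AM0 Ω ε wk u K → ∀ (y : ℂ) (r : ℝ), 0 < r → closedBall y r ⊆ Ω → ∀ κ : ℂ → ℝ,
    LC (ball y r \ K) κ → ∀ G : Set ℝ, MeasurableSet G → (∀ s ∈ G, s ∈ Ioo 0 r → GoodC K κ y s) →
    ∀ s ∈ Ioc 0 r, volume (Ioo (s / 2) s \ G) ≤ ENNReal.ofReal (s / 200) →
      D u K y (s / 2) ≤ 10 * C * ε * s * √s ∨ 2 * √2 * D u K y (s / 2) ≤ D u K y s := by
  obtain ⟨C, hC, h1⟩ := DI1 (η := 1 / 100) (by norm_num)
  refine ⟨C, hC, fun Ω ε wk u K h y r hr hB κ hκ G hG hgood s hs hv => ?_⟩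
  have hs0 : 0 < s := hs.1
  have hBs : closedBall y s ⊆ Ω := (closedBall_subset_closedBall hs.2).trans hB
  have hfin : Dir u (ball y s \ K) < ∞ := by
    rw [(h.upper_real hs0 hBs).2.1]
    exact ENNReal.ofReal_lt_top
  have hsub : Ioo (1 / 2 * s) s ∩ G ⊆ Ioo 0 r := fun t ht =>
    ⟨by have := ht.1.1; linarith, ht.1.2.trans_le hs.2⟩
  have hpi := Real.pi_gt_d2
  have hw : (10 / 3 : ℝ) / (2 * Real.pi) + 1 / 100 ≤ 11 / 20 := by
    have : (10 / 3 : ℝ) / (2 * Real.pi) ≤ 27 / 50 := by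
      rw [div_le_iff₀ (by positivity)]
      linarith
    linarith
  have h5 := T5 (u := u) h.closed (y := y) (τ := 1 / 2) (κ := 11 / 20) (E := C * ε) (m := 10)
    (η := 1 / 100) hs0 hfin (by norm_num) (by norm_num) (by norm_num) (mul_nonneg hC.le h.eps)
    (by norm_num) (by norm_num) hG (bad_Decay0 hG hs0 hv) (by
      filter_upwards [ae_restrict_of_ae_restrict_of_subset hsub (h1 Ω ε wk u K h y r hr hB κ hκ),
        ae_restrict_mem (measurableSet_Ioo.inter hG)] with t h2 ht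
      have ht' := hsub ht
      obtain ⟨g1, g2, g3⟩ := hgood t ht.2 ht'
      refine (h2 (10 / 3) (by norm_num) (by linarith) g1 g2 g3).trans ?_
      gcongr
      exact ht'.1.le)
  have e : 1 / 2 * s = s / 2 := by ring
  rw [e] at h5
  rcases h5 with h5 | h5
  · left
    calc _ ≤ _ := h5
      _ = _ := by ring
  · right
    have hD : 0 ≤ D u K y s := ENNReal.toReal_nonneg
    have h6 := mul_le_mul_of_nonneg_left h5 (show (0 : ℝ) ≤ 2 * √2 by positivity)
    have h7 := mul_le_mul_of_nonneg_right exp_Decay0 hD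
    rw [← mul_assoc] at h6
    linarith

end

end Vale.Agent.P128.J
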