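import Vale.Agent.P128.Defs2

/-! P128 J/Defs: definitions of block J (jump points, triple junctions, radial curves).
Owner helper27, overview notes/P128J.md. -/

namespace Vale.Agent.P128.J

open MeasureTheory Set Metric Filter Topology
open scoped ENNReal ComplexConjugate

noncomputable section

/-- Height of `w` over the line through `y` with direction `e`. -/
def ht (y e w : ℂ) : ℝ := ((w - y) * conj e).im

/-- Abscissa of `w` along the line through `y` with direction `e`. -/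
def ab (y e w : ℂ) : ℝ := ((w - y) * conj e).re

/-- Direction of `w` seen from `y`. -/
def dirn (y w : ℂ) : ℂ := (w - y) / ((‖w - y‖ : ℝ) : ℂ)

/-- Rotation by a right angle around `y`. -/
def rot (y w : ℂ) : ℂ := y + Complex.I * (w - y)

/-- Number of points of `K` on the circle. -/
def cnt (K : Set ℂ) (y : ℂ) (t : ℝ) : ℝ≥0∞ := ((K ∩ sphere y t).encard : ℝ≥0∞)

/-- Two-sided flatness. -/
structure Fl (K : Set ℂ) (y : ℂ) (s η : ℝ) (e : ℂ) : Prop where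
  unit : ‖e‖ = 1
  up : ∀ w ∈ K, ‖w - y‖ ≤ s → |ht y e w| ≤ η * s
  low : ∀ t : ℝ, |t| ≤ s → ∃ w ∈ K, ‖w - (y + t * e)‖ ≤ η * s

/-- Flat at all points and scales inside the ball. -/
def RFl (K : Set ℂ) (x : ℂ) (r η : ℝ) : Prop :=
  ∀ y ∈ K, ∀ s, 0 < s → ‖y - x‖ + s ≤ r → ∃ e, Fl K y s η e

/-- Almost minimal length at all points and scales inside the ball. -/
def RLen (K : Set ℂ) (x : ℂ) (r η : ℝ) : Prop :=
  ∀ y ∈ K, ∀ s, 0 < s → ‖y - x‖ + s ≤ r →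
    μH[1] (K ∩ closedBall y s) ≤ ENNReal.ofReal ((2 + η) * s)

/-- Arbitrarily flat at arbitrarily small scales. -/
def VFl (K : Set ℂ) (x : ℂ) (r : ℝ) : Prop :=
  ∀ y ∈ K, ‖y - x‖ < r → ∀ η s₀ : ℝ, 0 < η → 0 < s₀ → ∃ s e, 0 < s ∧ s ≤ s₀ ∧ Fl K y s η e

/-- `P` lies above and `M` below the line. -/
structure Side (K P M : Set ℂ) (y : ℂ) (s η : ℝ) (e : ℂ) : Prop where
  fl : Fl K y s η e
  top : ∀ p, ‖p - y‖ ≤ s → η * s < ht y e p → p ∈ P
  bot : ∀ p, ‖p - y‖ ≤ s → ht y e p < -(η * s) → p ∈ M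

/-- The two sides of `K`. -/
structure Lab (K : Set ℂ) (x : ℂ) (r η : ℝ) (P M : Set ℂ) : Prop where
  oP : IsOpen P
  oM : IsOpen M
  dPM : Disjoint P M
  dP : Disjoint P K
  dM : Disjoint M K
  cover : ∀ p, ‖p - x‖ ≤ r → p ∉ K → p ∈ P ∨ p ∈ M
  side : ∀ y ∈ K, ∀ s, 0 < s → ‖y - x‖ + s ≤ r → ∃ e, Side K P M y s η e

/-- At most one point of `K` on the right half of the circle. -/
def Uq (K : Set ℂ) (y e : ℂ) (t : ℝ) : Prop :=
  ∀ w ∈ K, ∀ w' ∈ K, ‖w - y‖ = t → ‖w' - y‖ = t → 0 ≤ ab y e w → 0 ≤ ab y e w' → w = w'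

/-- The circle is good for the differential inequality. -/
def GoodC (K : Set ℂ) (κ : ℂ → ℝ) (y : ℂ) (s : ℝ) : Prop :=
  (K ∩ sphere y s).Finite ∧ Gap K y s (10 / 3) ∧ SepArcs K κ y s

/-- A tangent line with a rate at scale `r`. -/
def TanAt (K : Set ℂ) (y : ℂ) (ρ B r : ℝ) (τ : ℂ) : Prop :=
  ∀ t ∈ Ioc 0 ρ, Fl K y t (B * (t / r) ^ (1 / 4 : ℝ)) τ

/-- Tangent lines at all points near `x`. -/
def Tan (K : Set ℂ) (x : ℂ) (ρ B r : ℝ) : Prop :=
  ∀ y ∈ K, ‖y - x‖ ≤ ρ → ∃ τ, TanAt K y ρ B r τ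

end

end Vale.Agent.P128.J
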