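import Vale.Agent.P128.J.Fl0

/-! P128 J/Fl (TASK, owner helper27, notes/P128J.md). Helper names end with `_Fl`.
Flatness. `shift`: the point `y' + t e` is at distance `|ht y e y'|` from `y + (ab y e y' + t) e`. `dir`: points of `K` near `y' ± (s/4) e'` lie in the ball of radius `s` around `y`.
`mid`: `δ = ‖q - p‖`, the point of `K` near `p + (ab p e q / 2) e`. `close_two`: `rt 2 = -1` (`Complex.exp_pi_mul_I`), `cone 2 y e = {y + t e}`.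
`bisect`: by contradiction; by induction there are `p n ∈ K ∩ U`, `q n ∈ K ∩ V` with `‖q n - p n‖ ≤ (3/5)^n d`, `‖p n - p‖ ≤ (3/2) d (1 - (3/5)^n)` (use `mid` at `p n`; the new point is in the ball, so in `U` or in `V`);
the compact disjoint sets `A ∩ U`, `A ∩ V` have positive distance (`Disjoint.exists_thickenings` or `IsCompact.exists_isMinOn`). If `p n = q n` we are done.
`fill`: `f '' A` is compact; for `v` not in it, say `f y₀ < v`, take the maximum of `f` on `A ∩ {f ≤ v}`. -/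

namespace Vale.Agent.P128.J

open MeasureTheory Set Metric Filter Topology
open scoped ENNReal ComplexConjugate

noncomputable section

variable {Ω K P M : Set ℂ} {ε r s t η ρ B : ℝ} {wk : Prop} {u : ℂ → ℝ} {x y e : ℂ}

theorem step_Fl (h : RFl K x r η) (hη : η ≤ 1 / 20) {p q : ℂ} (hp : p ∈ K)
    (hq : q ∈ K) (hr : ‖p - x‖ + 3 * ‖q - p‖ ≤ r) {U V : Set ℂ}
    (hc : K ∩ closedBall p (3 * ‖q - p‖) ⊆ U ∪ V) (hpU : p ∈ U) (hqV : q ∈ V) (n : ℕ) :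
    ∃ a ∈ K ∩ U, ∃ b ∈ K ∩ V, ‖b - a‖ ≤ (3 / 5) ^ n * ‖q - p‖ ∧
      ‖a - p‖ ≤ 3 / 2 * (‖q - p‖ - (3 / 5) ^ n * ‖q - p‖) := by
  induction n with
  | zero => exact ⟨p, ⟨hp, hpU⟩, q, ⟨hq, hqV⟩, by simp, by simp⟩
  | succ n ih =>
    obtain ⟨a, ha, b, hb, h1, h2⟩ := ih
    have h0 : 0 ≤ (3 / 5 : ℝ) ^ n * ‖q - p‖ := by positivity
    have h3 : (3 / 5 : ℝ) ^ n * ‖q - p‖ ≤ ‖q - p‖ :=
      mul_le_of_le_one_left (norm_nonneg _) (pow_le_one₀ (by norm_num) (by norm_num))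
    rw [pow_succ', mul_assoc]
    rcases (norm_nonneg (b - a)).eq_or_lt with e | e
    · exact ⟨a, ha, b, hb, by linarith, by linarith⟩
    obtain ⟨e', he⟩ := h a ha.1 _ e (by linarith [norm_sub_le_norm_sub_add_norm_sub a p x])
    obtain ⟨z, hz, h4, h5⟩ := he.mid hb.1 hη
    have h6 := norm_sub_le_norm_sub_add_norm_sub z a p
    rcases hc ⟨hz, mem_closedBall_iff_norm.2 (by linarith)⟩ with hU | hV
    · exact ⟨z, ⟨hz, hU⟩, b, hb, by linarith, by linarith⟩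
    · exact ⟨a, ha, z, ⟨hz, hV⟩, by linarith, by linarith⟩

theorem bisect (hK : IsClosed K) (h : RFl K x r η) (hη : η ≤ 1 / 20) {p q : ℂ} (hp : p ∈ K)
    (hq : q ∈ K) (hr : ‖p - x‖ + 3 * ‖q - p‖ ≤ r) {U V : Set ℂ} (hU : IsClosed U)
    (hV : IsClosed V) (hc : K ∩ closedBall p (3 * ‖q - p‖) ⊆ U ∪ V) (hpU : p ∈ U) (hqV : q ∈ V) :
    (K ∩ closedBall p (3 * ‖q - p‖) ∩ U ∩ V).Nonempty := by
  have hA : IsCompact (K ∩ closedBall p (3 * ‖q - p‖)) := (isCompact_closedBall _ _).inter_left hK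
  have hs : ∀ n : ℕ, ∃ w ∈ (K ∩ closedBall p (3 * ‖q - p‖) ∩ U) ×ˢ
      (K ∩ closedBall p (3 * ‖q - p‖) ∩ V), ‖w.2 - w.1‖ ≤ (3 / 5) ^ n * ‖q - p‖ := fun n => by
    obtain ⟨a, ha, b, hb, h1, h2⟩ := step_Fl h hη hp hq hr hc hpU hqV n
    have h0 : 0 ≤ (3 / 5 : ℝ) ^ n * ‖q - p‖ := by positivity
    have h3 := norm_sub_le_norm_sub_add_norm_sub b a p
    have h4 := norm_nonneg (q - p)
    exact ⟨(a, b), ⟨⟨⟨ha.1, mem_closedBall_iff_norm.2 (by linarith)⟩, ha.2⟩,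
      ⟨⟨hb.1, mem_closedBall_iff_norm.2 (by linarith)⟩, hb.2⟩⟩, h1⟩
  obtain ⟨w, hw, hm⟩ := ((hA.inter_right hU).prod (hA.inter_right hV)).exists_isMinOn
    (f := fun w : ℂ × ℂ => ‖w.2 - w.1‖) (let ⟨w, hw, _⟩ := hs 0; ⟨w, hw⟩) (by fun_prop)
  have ht : Tendsto (fun n : ℕ => (3 / 5 : ℝ) ^ n * ‖q - p‖) atTop (𝓝 0) := by
    simpa using (tendsto_pow_atTop_nhds_zero_of_lt_one (r := (3 / 5 : ℝ)) (by norm_num)
      (by norm_num)).mul_const ‖q - p‖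
  have h0 : ‖w.2 - w.1‖ ≤ 0 := ge_of_tendsto' ht fun n => by
    obtain ⟨w', h1, h2⟩ := hs n
    exact (hm h1).trans h2
  have e : w.2 = w.1 := sub_eq_zero.1 (norm_le_zero_iff.1 h0)
  exact ⟨w.1, hw.1, e ▸ hw.2.2⟩

theorem up_Fl {A : Set ℂ} (hA : IsCompact A) {f : ℂ → ℝ} (hf : ContinuousOn f A) {a b : ℝ}
    (h : ∀ y ∈ A, f y ∈ Ioo a b → ∀ δ : ℝ, 0 < δ → ∃ p ∈ A, f y < f p ∧ f p < f y + δ)
    {y₀ : ℂ} (hy : y₀ ∈ A) (h0 : a < f y₀) {v : ℝ} (h1 : f y₀ ≤ v) (h2 : v < b) : v ∈ f '' A := by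
  have hC : IsCompact (f '' A ∩ Iic v) := (hA.image_of_continuousOn hf).inter_right isClosed_Iic
  obtain ⟨m, ⟨⟨y, hyA, rfl⟩, hv⟩, hm⟩ := hC.exists_isGreatest ⟨_, mem_image_of_mem f hy, h1⟩
  rcases (mem_Iic.1 hv).eq_or_lt with e | e
  · exact ⟨y, hyA, e⟩
  · obtain ⟨p, hp, h3, h4⟩ := h y hyA ⟨h0.trans_le (hm ⟨mem_image_of_mem f hy, h1⟩), e.trans h2⟩ _
      (sub_pos.2 e)
    exact absurd (hm ⟨mem_image_of_mem f hp, mem_Iic.2 (by linarith)⟩) (not_le.2 h3)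

theorem fill {A : Set ℂ} (hA : IsCompact A) {f : ℂ → ℝ} (hf : ContinuousOn f A) {a b : ℝ}
    (h : ∀ y ∈ A, f y ∈ Ioo a b → ∀ δ : ℝ, 0 < δ →
      (∃ p ∈ A, f y < f p ∧ f p < f y + δ) ∧ ∃ p ∈ A, f y - δ < f p ∧ f p < f y)
    {y₀ : ℂ} (hy : y₀ ∈ A) (h0 : f y₀ ∈ Ioo a b) : Ioo a b ⊆ f '' A := by
  intro v hv
  rcases le_total (f y₀) v with e | e
  · exact up_Fl hA hf (fun y h1 h2 δ hδ => (h y h1 h2 δ hδ).1) hy h0.1 e hv.2
  · obtain ⟨y, h1, h2⟩ := up_Fl hA (f := fun y => -f y) hf.neg (a := -b) (b := -a)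
      (fun y h1 h2 δ hδ => by
        obtain ⟨p, hp, h3, h4⟩ := (h y h1 ⟨by linarith [h2.2], by linarith [h2.1]⟩ δ hδ).2
        exact ⟨p, hp, by linarith, by linarith⟩) hy (neg_lt_neg h0.2) (neg_le_neg e)
      (neg_lt_neg hv.1)
    exact ⟨y, h1, neg_injective h2⟩

end

end Vale.Agent.P128.J
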