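import Vale.Agent.P128.J.Alg

/-! P128 J/Fl0 (TASK, owner helper27, notes/P128J.md). Helper names end with `_Fl0`.
Flatness. `shift`: the point `y' + t e` is at distance `|ht y e y'|` from `y + (ab y e y' + t) e`. `dir`: points of `K` near `y' ± (s/4) e'` lie in the ball of radius `s` around `y`.
`mid`: `δ = ‖q - p‖`, the point of `K` near `p + (ab p e q / 2) e`. `close_two`: `rt 2 = -1` (`Complex.exp_pi_mul_I`), `cone 2 y e = {y + t e}`.
`bisect`: by contradiction; by induction there are `p n ∈ K ∩ U`, `q n ∈ K ∩ V` with `‖q n - p n‖ ≤ (3/5)^n d`, `‖p n - p‖ ≤ (3/2) d (1 - (3/5)^n)` (use `mid` at `p n`; the new point is in the ball, so in `U` or in `V`);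
the compact disjoint sets `A ∩ U`, `A ∩ V` have positive distance (`Disjoint.exists_thickenings` or `IsCompact.exists_isMinOn`). If `p n = q n` we are done.
`fill`: `f '' A` is compact; for `v` not in it, say `f y₀ < v`, take the maximum of `f` on `A ∩ {f ≤ v}`. -/

namespace Vale.Agent.P128.J

open MeasureTheory Set Metric Filter Topology
open scoped ENNReal ComplexConjugate

noncomputable section

variable {Ω K P M : Set ℂ} {ε r s t η ρ B : ℝ} {wk : Prop} {u : ℂ → ℝ} {x y e : ℂ}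

theorem Fl.nonneg (h : Fl K y s η e) (hs : 0 < s) : 0 ≤ η := by
  obtain ⟨w, -, hw⟩ := h.low 0 (by simpa using hs.le)
  exact nonneg_of_mul_nonneg_left ((norm_nonneg _).trans hw) hs

theorem Fl.mono {s' η' : ℝ} (h : Fl K y s η e) (hs : s' ≤ s) (hη : η * s ≤ η' * s') :
    Fl K y s' η' e :=
  ⟨h.unit, fun w hw h1 => (h.up w hw (h1.trans hs)).trans hη, fun t ht => by
    obtain ⟨w, h1, h2⟩ := h.low t (ht.trans hs)
    exact ⟨w, h1, h2.trans hη⟩⟩

theorem Fl.neg (h : Fl K y s η e) : Fl K y s η (-e) :=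
  ⟨by rw [norm_neg, h.unit], fun w hw h1 => by rw [ht_neg, abs_neg]; exact h.up w hw h1,
    fun t ht => by
      obtain ⟨w, h1, h2⟩ := h.low (-t) (by rwa [abs_neg])
      exact ⟨w, h1, by rwa [Complex.ofReal_neg, neg_mul, ← mul_neg] at h2⟩⟩

theorem Fl.shift {y' : ℂ} {s' η' : ℝ} (h : Fl K y s η e) (hy : y' ∈ K) (h0 : 0 ≤ s')
    (hs : ‖y' - y‖ + s' ≤ s) (hη : 2 * η * s ≤ η' * s') : Fl K y' s' η' e := by
  have h1 := h.up y' hy (by linarith)
  refine ⟨h.unit, fun w hw h2 => ?_, fun t ht => ?_⟩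
  · have h3 := h.up w hw (by linarith [norm_sub_le_norm_sub_add_norm_sub w y' y])
    rw [← ht_sub y]
    linarith [abs_sub (ht y e w) (ht y e y')]
  · obtain ⟨w, h2, h3⟩ := h.low (ab y e y' + t)
      (by linarith [abs_add_le (ab y e y') t, abs_ab_le h.unit y y'])
    refine ⟨w, h2, ?_⟩
    have h4 := norm_foot h.unit y y'
    have h5 : w - (y' + t * e) =
        (w - (y + (ab y e y' + t : ℝ) * e)) - (y' - (y + (ab y e y' : ℝ) * e)) := by
      push_cast
      ring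
    rw [h5]
    linarith [norm_sub_le (w - (y + (ab y e y' + t : ℝ) * e)) (y' - (y + (ab y e y' : ℝ) * e))]

theorem Fl.dir {y' e' : ℂ} {s' : ℝ} (h : Fl K y s η e) (h' : Fl K y' s' η e') (hs : 0 < s)
    (h1 : s / 2 ≤ s') (h2 : s' ≤ s) (hy : ‖y' - y‖ ≤ s / 2) (hη : η ≤ 1 / 4) :
    |(e' * conj e).im| ≤ 8 * η := by
  have h0 := h.nonneg hs
  have h3 : ∀ t : ℝ, |t| = s / 4 → |ht y e (y' + t * e')| ≤ 2 * η * s := by
    intro t ht
    obtain ⟨w, a1, a2⟩ := h'.low t (by linarith)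
    have a3 : η * s' ≤ η * s := mul_le_mul_of_nonneg_left h2 h0
    have a4 : η * s ≤ 1 / 4 * s := mul_le_mul_of_nonneg_right hη hs.le
    have a5 : ‖y' + t * e' - y'‖ = s / 4 := by
      rw [add_sub_cancel_left, norm_mul, h'.unit, mul_one, Complex.norm_real, Real.norm_eq_abs, ht]
    have a6 := h.up w a1 (by
      linarith [norm_sub_le_norm_sub_add_norm_sub w (y' + t * e') y,
        norm_sub_le_norm_sub_add_norm_sub (y' + t * e') y' y])
    have a7 := lip_ht h.unit y w (y' + t * e')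
    rw [abs_le] at a6 a7 ⊢
    constructor <;> linarith [a6.1, a6.2, a7.1, a7.2]
  have h4 := h3 (s / 4) (abs_of_pos (by positivity))
  have h5 := h3 (-(s / 4)) (by rw [abs_neg, abs_of_pos (by positivity)])
  have h6 : ht y e (y' + (s / 4 : ℝ) * e') - ht y e (y' + (-(s / 4) : ℝ) * e') =
      s / 2 * (e' * conj e).im := by
    rw [ht_sub, ht, ← Complex.im_ofReal_mul]
    congr 1
    push_cast
    ring
  have h7 : |s / 2 * (e' * conj e).im| ≤ s / 2 * (8 * η) := by
    rw [← h6]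
    exact (abs_sub _ _).trans (by linarith)
  rw [abs_mul, abs_of_pos (half_pos hs)] at h7
  exact le_of_mul_le_mul_left h7 (half_pos hs)

theorem Fl.mid {p q : ℂ} (h : Fl K p ‖q - p‖ η e) (hq : q ∈ K) (hη : η ≤ 1 / 20) :
    ∃ z ∈ K, ‖z - p‖ ≤ 3 / 5 * ‖q - p‖ ∧ ‖q - z‖ ≤ 3 / 5 * ‖q - p‖ := by
  have h1 := abs_ab_le h.unit p q
  have h2 : |ab p e q / 2| = |ab p e q| / 2 := by rw [abs_div, abs_two]
  obtain ⟨z, h3, h4⟩ := h.low (ab p e q / 2) (by linarith [abs_nonneg (ab p e q)])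
  have h5 := h.up q hq le_rfl
  rw [← norm_foot h.unit] at h5
  have h6 : η * ‖q - p‖ ≤ 1 / 20 * ‖q - p‖ := mul_le_mul_of_nonneg_right hη (norm_nonneg _)
  have h7 : ‖((ab p e q / 2 : ℝ) : ℂ) * e‖ = |ab p e q| / 2 := by
    rw [norm_mul, h.unit, mul_one, Complex.norm_real, Real.norm_eq_abs, h2]
  have h8 := norm_sub_le_norm_sub_add_norm_sub z (p + (ab p e q / 2 : ℝ) * e) p
  rw [add_sub_cancel_left, h7] at h8
  have h9 := norm_sub_le_norm_sub_add_norm_sub q (p + (ab p e q / 2 : ℝ) * e) z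
  have h10 := norm_sub_le_norm_sub_add_norm_sub q (p + (ab p e q : ℝ) * e)
    (p + (ab p e q / 2 : ℝ) * e)
  rw [show p + (ab p e q : ℝ) * e - (p + (ab p e q / 2 : ℝ) * e) = (ab p e q / 2 : ℝ) * e by
    push_cast; ring, h7] at h10
  rw [norm_sub_rev (p + _) z] at h9
  exact ⟨z, h3, by linarith [norm_nonneg (q - p)], by linarith⟩

theorem close_two (h : Close 2 η K y s e) : Fl K y s η e := by
  have hrt : rt 2 = -1 := by
    rw [rt, ← Complex.exp_pi_mul_I]
    congr 1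
    push_cast
    ring
  refine ⟨h.1, fun w hw h1 => ?_, fun t ht => ?_⟩
  · obtain ⟨_, ⟨j, τ, -, rfl⟩, h2⟩ := h.2.1 w ⟨hw, mem_closedBall_iff_norm.2 h1⟩
    have h3 := lip_ht h.1 y w (y + τ * (e * rt 2 ^ j))
    have h4 : y + τ * (e * rt 2 ^ j) = y + (τ * (-1) ^ j : ℝ) * e := by
      rw [hrt]
      push_cast
      ring
    rw [← dist_eq_norm] at h3
    refine le_trans ?_ (h3.trans h2)
    rw [h4, ht_line h.1, sub_zero]
  · have h0 : y + t * e ∈ cone 2 y e := by
      rcases le_total 0 t with h1 | h1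
      · exact ⟨0, t, h1, by simp⟩
      · exact ⟨1, -t, by linarith, by simp [hrt]⟩
    obtain ⟨w, h1, h2⟩ := h.2.2 (y + t * e) ⟨h0, mem_closedBall_iff_norm.2 (by
      rwa [add_sub_cancel_left, norm_mul, h.1, mul_one, Complex.norm_real, Real.norm_eq_abs])⟩
    exact ⟨w, h1, by rwa [← dist_eq_norm, dist_comm]⟩

theorem RFl.mono {r' η' : ℝ} (h : RFl K x r η) (hr : r' ≤ r) (hη : η ≤ η') : RFl K x r' η' :=
  fun y hy s hs h1 => by
    obtain ⟨e, he⟩ := h y hy s hs (h1.trans hr)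
    exact ⟨e, he.mono le_rfl (mul_le_mul_of_nonneg_right hη hs.le)⟩

end

end Vale.Agent.P128.J
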