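import Vale.Agent.P128.J.GrA

/-! P128 J/GrB (TASK, owner helper27, notes/P128J.md). Helper names end with `_GrB`.
`γ a = x + e (a + φ a I)`, `τ a` a tangent at `γ a`, `c + d I = τ a * conj e`, `|d| ≤ 2/1000`, `|c| ≥ 99/100`, `φ' a = d / c`. `cone_cond`: `‖γ a' - γ a‖ ≤ 1.01 |a' - a|`.
`ht (γ a) (τ a) (γ a') = c (φ a' - φ a) - d (a' - a)`, so `TanAt.up'` and `tendsto_q` give the derivative (`hasDerivAt_iff_isLittleO`, `Asymptotics.isLittleO_iff`).
`φ' a - φ' a' = im (τ a * conj (τ a')) / (c c')`, `im_two`, `TanAt.up'` both ways give the Hoelder bound (`1.01^(1/4) ≤ 2`, `Real.mul_rpow`). -/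

namespace Vale.Agent.P128.J

open MeasureTheory Set Metric Filter Topology
open scoped ENNReal ComplexConjugate

noncomputable section

variable {Ω K P M : Set ℂ} {ε r s t η ρ B : ℝ} {wk : Prop} {u : ℂ → ℝ} {x y e : ℂ}

theorem sq_GrB (he : ‖e‖ = 1) : e.re ^ 2 + e.im ^ 2 = 1 := by
  have := Complex.normSq_eq_norm_sq e
  rw [he, Complex.normSq_apply] at this
  linarith

theorem ht_GrB (he : ‖e‖ = 1) (y τ w : ℂ) :
    ht y τ w = (τ * conj e).re * ht y e w - (τ * conj e).im * ab y e w := by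
  have h := sq_GrB he
  simp only [ht, ab, Complex.mul_re, Complex.mul_im, Complex.conj_re, Complex.conj_im]
  linear_combination ((w - y).re * τ.im - (w - y).im * τ.re) * h

theorem im_GrB (he : ‖e‖ = 1) (τ τ' : ℂ) : (τ' * conj τ).im =
    (τ' * conj e).im * (τ * conj e).re - (τ' * conj e).re * (τ * conj e).im := by
  have h := sq_GrB he
  simp only [Complex.mul_re, Complex.mul_im, Complex.conj_re, Complex.conj_im]
  linear_combination (τ'.re * τ.im - τ'.im * τ.re) * h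

theorem re_GrB {τ : ℂ} (he : ‖e‖ = 1) (hτ : ‖τ‖ = 1) (hd : |(τ * conj e).im| ≤ 2 / 1000) :
    99 / 100 ≤ |(τ * conj e).re| := by
  have h := sq_GrB (e := τ * conj e) (by rw [norm_mul, Complex.norm_conj, he, hτ, one_mul])
  have h1 := pow_le_pow_left₀ (abs_nonneg _) hd 2
  rw [sq_abs] at h1
  refine le_of_pow_le_pow_left₀ two_ne_zero (abs_nonneg _) ?_
  rw [sq_abs]
  linarith

theorem div_GrB {c d p q k : ℝ} (hc : 99 / 100 ≤ |c|) (h : |c * p - d * q| ≤ k) :
    |p - q * (d / c)| ≤ 2 * k := by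
  have h0 : c ≠ 0 := fun h => by rw [h, abs_zero] at hc; norm_num at hc
  have e1 : c * p - d * q = c * (p - q * (d / c)) := by field_simp
  rw [e1, abs_mul] at h
  nlinarith [abs_nonneg (p - q * (d / c))]

theorem div2_GrB {c d c' d' k : ℝ} (hc : 99 / 100 ≤ |c|) (hc' : 99 / 100 ≤ |c'|)
    (h : |d' * c - c' * d| ≤ k) : |d' / c' - d / c| ≤ 2 * k := by
  have h0 : c ≠ 0 := fun h => by rw [h, abs_zero] at hc; norm_num at hc
  have h0' : c' ≠ 0 := fun h => by rw [h, abs_zero] at hc'; norm_num at hc'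
  have e1 : d' * c - c' * d = c * c' * (d' / c' - d / c) := by field_simp
  rw [e1, abs_mul, abs_mul] at h
  have h2 : 1 / 2 ≤ |c| * |c'| := by nlinarith
  nlinarith [abs_nonneg (d' / c' - d / c)]

theorem graph_of_tan {h : ℝ} (hK : IsClosed K) (hx : x ∈ K) (hT : Tan K x ρ B r) (hr : 0 < r)
    (hB : 0 ≤ B) (hh : 0 < h) (hρ : 4 * h ≤ ρ) (hs : B * (4 * h / r) ^ (1 / 4 : ℝ) ≤ 1 / 1000) :
    ∃ e φ φ', Graph K x e h (10 * B) (1 / 4) r φ φ' := by
  have hρ0 : 0 < ρ := by linarith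
  obtain ⟨e, he⟩ := hT x hx (by rw [sub_self, norm_zero]; exact hρ0.le)
  have he1 := he.unit hρ0
  obtain ⟨φ, hφ0, hφ⟩ := graph_fun hK hx hT he hr hB hh hρ hs
  obtain ⟨γ, hγ⟩ : ∃ γ : ℝ → ℂ, ∀ a, γ a = x + e * ((a : ℂ) + (φ a : ℂ) * Complex.I) :=
    ⟨_, fun _ => rfl⟩
  set I : Set ℝ := Ioo (-(3 / 2 * h)) (3 / 2 * h) with hI
  have hsub : Icc (-h) h ⊆ I := fun a ha => ⟨by linarith [ha.1], by linarith [ha.2]⟩
  have hK' : ∀ a ∈ I, γ a ∈ K := fun a ha => hγ a ▸ (hφ a ha).1.1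
  have hN : ∀ a ∈ I, ‖γ a - x‖ ≤ 2 * h := fun a ha => by
    rw [← dist_eq_norm, hγ]
    exact (hφ a ha).1.2
  have hex : ∀ a ∈ I, ∃ τ, TanAt K (γ a) ρ B r τ := fun a ha =>
    hT _ (hK' a ha) (by linarith [hN a ha])
  choose! τ hτ using hex
  have hab : ∀ a a', ab (γ a) e (γ a') = a' - a := fun a a' => by
    rw [← ab_sub x, hγ, hγ, (ab_pt he1 x _ _).1, (ab_pt he1 x _ _).1]
  have hht : ∀ a a', ht (γ a) e (γ a') = φ a' - φ a := fun a a' => by
    rw [← ht_sub x, hγ, hγ, (ab_pt he1 x _ _).2, (ab_pt he1 x _ _).2]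
  have hcc := fun a (ha : a ∈ I) (w : ℂ) =>
    cone_cond (w := w) hx he hr hB hh hρ hs (hK' a ha) (hN a ha) (hτ a ha)
  have hc : ∀ a ∈ I, 99 / 100 ≤ |(τ a * conj e).re| := fun a ha =>
    re_GrB he1 ((hτ a ha).unit hρ0) (hcc a ha 0).1
  have hlip : ∀ a ∈ I, ∀ a' ∈ I, ‖γ a' - γ a‖ ≤ 2 * |a' - a| := fun a ha a' ha' => by
    have h1 := (hcc a ha (γ a')).2 (hK' a' ha') (hN a' ha')
    have h2 := norm_le_ab_ht he1 (γ a) (γ a')
    rw [hab] at h2
    linarith [norm_nonneg (γ a' - γ a)]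
  have hup : ∀ a ∈ I, ∀ a' ∈ I, |ht (γ a) (τ a) (γ a')| ≤
      B * (‖γ a' - γ a‖ / r) ^ (1 / 4 : ℝ) * ‖γ a' - γ a‖ := fun a ha a' ha' => by
    refine (hτ a ha).up' (hK' a' ha') ?_
    have := norm_sub_le_norm_sub_add_norm_sub (γ a') x (γ a)
    rw [norm_sub_rev x] at this
    linarith [hN a ha, hN a' ha']
  refine ⟨e, φ, fun a => (τ a * conj e).im / (τ a * conj e).re, he1, hφ0, fun a ha => ?_,
    fun a ha => ?_, fun a' ha' a ha => ?_, fun a ha b hb => ⟨fun hm => ?_, fun hm => ?_⟩⟩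
  · have haI := hsub ha
    rw [hasDerivAt_iff_isLittleO, Asymptotics.isLittleO_iff]
    intro k hk
    obtain ⟨t₀, ht₀, ht0⟩ := (((tendsto_q hr B).eventually
      (gt_mem_nhds (by linarith : 0 < k / 4))).and self_mem_nhdsWithin).exists
    have ht0' : 0 < t₀ := ht0
    filter_upwards [isOpen_Ioo.mem_nhds haI, ball_mem_nhds a (half_pos ht0')] with a' ha' hd
    rw [mem_ball, Real.dist_eq] at hd
    have h1 := hup a haI a' ha'
    have h2 := hlip a haI a' ha'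
    have h3 := q_mono hr hB (norm_nonneg (γ a' - γ a)) (by linarith : _ ≤ t₀)
    have h4 := mul_le_mul (h3.trans ht₀.le) h2 (norm_nonneg _) (by linarith)
    rw [ht_GrB he1, hab, hht] at h1
    have h5 := div_GrB (hc a haI) (h1.trans h4)
    rw [Real.norm_eq_abs, Real.norm_eq_abs, smul_eq_mul]
    linarith
  · have h1 := hc a (hsub ha)
    have h2 := (hcc a (hsub ha) 0).1
    rw [abs_div, div_le_iff₀ (by linarith)]
    linarith
  · have hq : 0 ≤ (|a' - a| / r) ^ (1 / 4 : ℝ) := Real.rpow_nonneg (by positivity) _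
    rcases eq_or_ne a' a with rfl | hne
    · rw [sub_self, abs_zero]
      positivity
    have haI := hsub ha
    have haI' := hsub ha'
    have hne' : γ a' ≠ γ a := fun hE => by
      have := hab a a'
      rw [hE, hab, sub_self] at this
      exact hne (by linarith)
    have h1 := hup a' haI' a haI
    rw [norm_sub_rev] at h1
    have h2 := im_two ((hτ a haI).unit hρ0) ((hτ a' haI').unit hρ0) hne' (hup a haI a' haI') h1
    rw [im_GrB he1] at h2
    have h3 := div2_GrB (hc a haI) (hc a' haI') h2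
    have h4 := q_mono hr hB (norm_nonneg (γ a' - γ a)) (hlip a haI a' haI')
    rw [mul_div_assoc, Real.mul_rpow zero_le_two (by positivity)] at h4
    have h5 : (2 : ℝ) ^ (1 / 4 : ℝ) ≤ 2 := Real.rpow_le_self_of_one_le one_le_two (by norm_num)
    have h6 := mul_le_mul_of_nonneg_left (mul_le_mul_of_nonneg_right h5 hq) hB
    nlinarith [mul_nonneg hB hq]
  · refine (hφ a (hsub ha)).2 b ⟨hm, ?_⟩
    have h1 := norm_le_ab_ht he1 x (x + e * ((a : ℂ) + (b : ℂ) * Complex.I))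
    rw [(ab_pt he1 x _ _).1, (ab_pt he1 x _ _).2] at h1
    rw [mem_closedBall, dist_eq_norm]
    linarith [abs_le.2 ha, abs_le.2 hb]
  · rw [hm]
    exact (hφ a (hsub ha)).1.1

end

end Vale.Agent.P128.J
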