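import Vale.Agent.P128.J.TanC
import Vale.Agent.P128.J.GrB
import Vale.Agent.P128.B7a.Main
import Vale.Agent.P128.RAD.Main

/-! P128 J/Flat0 (TASK, owner helper27, notes/P128J.md). Helper names end with `_Flat0`.
`down`: induction on `k` for `s ∈ [t₁ / 4^(k+2), t₁ / 4^(k+1)]`; the step applies `hN` at `t = 4 s`. `rf_of_low`: `δ₁` from `NEAR2`, `Λ ε₀` for `η = 1/20000`, `τ₁ = min (1/10) (1/(4Λ))`. `NEAR2` at `(y, τ₁ r)` gives `lenc K y s₀ ≤ (2+η) s₀`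
for `s₀ = τ₁ r / 4`; for `z ∈ K`, `‖z - y‖ ≤ s₀ / 10`: `len K z (9/10 s₀) ≤ len K y s₀ ≤ lenc K y s₀` (`AM0.mono_real`, `AM0.upper_real`), `down` with `t₁ = 9/10 s₀`, `close_two`. `VFl`: `NEAR2` for `η'` at a small `t`, `s = t/4`.
`flat_J`: `GOODSC` with `δ = δ₁`, `tan_core` with `R = τ₁ r / 40`, `graph_of_tan` with `h = θ R`, `θ = min (1/400) ((1 / (1000 B))^4 / 4)`, `Graph.mono` with `A' = 10 B (40 / τ₁)^(1/4)`, `τ₀ = θ τ₁ / 40`. -/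

namespace Vale.Agent.P128.J

open MeasureTheory Set Metric Filter Topology
open scoped ENNReal ComplexConjugate

noncomputable section

variable {Ω K P M : Set ℂ} {ε r s t η ρ B : ℝ} {wk : Prop} {u : ℂ → ℝ} {x y e : ℂ}

theorem down {t₁ : ℝ} (hη : η ≤ 1 / 10) (hle : ∀ s ∈ Ioc 0 t₁, len K y s ≤ lenc K y s)
    (hN : ∀ t ∈ Ioc 0 t₁, len K y t ≤ 2.6 * t → ∃ e, ∀ s ∈ Icc (t / 64) (t / 4),
      lenc K y s ≤ (2 + η) * s ∧ Close 2 η K y s e) (h1 : len K y t₁ ≤ 2.6 * t₁) :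
    ∀ s ∈ Ioc 0 (t₁ / 4), lenc K y s ≤ (2 + η) * s ∧ ∃ e, Close 2 η K y s e := by
  intro s hs
  have ht : 0 < t₁ := by linarith [hs.1, hs.2]
  have key : ∀ k : ℕ, ∀ s ∈ Icc (t₁ / 16 * (1 / 4) ^ k) (t₁ / 4),
      lenc K y s ≤ (2 + η) * s ∧ ∃ e, Close 2 η K y s e := by
    intro k
    induction k with
    | zero =>
      intro s hs
      obtain ⟨e, he⟩ := hN t₁ ⟨ht, le_rfl⟩ h1
      have h2 := hs.1
      rw [pow_zero, mul_one] at h2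
      have h3 := he s ⟨by linarith, hs.2⟩
      exact ⟨h3.1, e, h3.2⟩
    | succ k ih =>
      intro s hs
      have hq : 0 < t₁ / 16 * (1 / 4 : ℝ) ^ k := by positivity
      have hq1 : t₁ / 16 * (1 / 4 : ℝ) ^ k ≤ t₁ / 16 :=
        mul_le_of_le_one_right (by positivity) (pow_le_one₀ (by norm_num) (by norm_num))
      rcases le_or_gt (t₁ / 16 * (1 / 4) ^ k) s with h2 | h2
      · exact ih s ⟨h2, hs.2⟩
      · have h3 := hs.1
        rw [pow_succ, ← mul_assoc] at h3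
        have h4 := (ih (4 * s) ⟨by linarith, by linarith⟩).1
        have h5 : 4 * s ∈ Ioc 0 t₁ := ⟨by linarith, by linarith⟩
        obtain ⟨e, he⟩ := hN (4 * s) h5 ((hle _ h5).trans (h4.trans (by nlinarith [h5.1])))
        have h6 := he s ⟨by linarith, by linarith⟩
        exact ⟨h6.1, e, h6.2⟩
  obtain ⟨k, hk⟩ := exists_pow_lt_of_lt_one (div_pos hs.1 (by positivity : 0 < t₁ / 16))
    (by norm_num : (1 / 4 : ℝ) < 1)
  rw [lt_div_iff₀ (by positivity)] at hk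
  exact key k s ⟨by linarith, hs.2⟩

theorem rf_of_low {c : ℝ} (hc : 0 < c) : ∃ δ₁ ε₁ τ₁ : ℝ, 0 < δ₁ ∧ 0 < ε₁ ∧ 0 < τ₁ ∧ τ₁ ≤ 1 / 10 ∧
    ∀ (Ω : Set ℂ) (ε : ℝ) (wk : Prop) (u : ℂ → ℝ) (K : Set ℂ), AM Ω ε wk c u K →
    ∀ (y : ℂ) (r : ℝ), y ∈ K → 0 < r → closedBall y r ⊆ Ω → ε * √r ≤ ε₁ →
      (∀ z ∈ K ∩ ball y (r / 2), Low u K δ₁ z (r / 4)) → len K y (τ₁ * r) ≤ 2.5 * (τ₁ * r) →
      RFl K y (τ₁ * r / 40) (1 / 20000) ∧ RLen K y (τ₁ * r / 40) (1 / 1000) ∧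
        VFl K y (τ₁ * r / 40) := by
  obtain ⟨δ₁, hδ, H⟩ := NEAR2 hc
  obtain ⟨Λ, ε₀, hΛ, hε₀, H1⟩ := H (1 / 20000) (by norm_num)
  have hτ : 0 < min (1 / 10) (1 / (4 * Λ)) := lt_min (by norm_num) (by positivity)
  refine ⟨δ₁, ε₀, min (1 / 10) (1 / (4 * Λ)), hδ, hε₀, hτ, min_le_left _ _, ?_⟩
  intro Ω ε wk u K h y r hy hr hB hε hL hl
  have hτ1 := min_le_left (1 / 10 : ℝ) (1 / (4 * Λ))
  have hτ2 : Λ * min (1 / 10) (1 / (4 * Λ)) ≤ 1 / 4 :=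
    (mul_le_mul_of_nonneg_left (min_le_right _ _) (by linarith)).trans_eq (by field_simp)
  generalize min (1 / 10 : ℝ) (1 / (4 * Λ)) = τ at *
  have hτr : 0 < τ * r := mul_pos hτ hr
  have hτr1 : τ * r ≤ r / 10 := by nlinarith
  have hΛr : Λ * (τ * r) ≤ r / 4 := by nlinarith
  have sub : ∀ z : ℂ, ∀ t : ℝ, ‖z - y‖ + t ≤ r → closedBall z t ⊆ Ω := fun z t h1 =>
    (closedBall_subset_closedBall' (by rw [dist_eq_norm]; linarith)).trans hB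
  have hsq : ∀ t, t ≤ r → ε * √t ≤ ε₀ := fun t ht =>
    (mul_le_mul_of_nonneg_left (Real.sqrt_le_sqrt ht) h.eps).trans hε
  have low : ∀ z ∈ K, ‖z - y‖ ≤ τ * r / 40 → ∀ t a : ℝ, 0 < t → a ≤ r / 4 →
      ∀ s, t ≤ s → s ≤ a → D u K z s ≤ δ₁ * s := fun z hz h1 t a ht ha s h2 h3 =>
    hL z ⟨hz, by rw [mem_ball, dist_eq_norm]; linarith⟩ s (ht.trans_le h2) (h3.trans ha)
  have one : ∀ z ∈ K, ‖z - y‖ ≤ τ * r / 40 → ∀ t ∈ Ioc 0 (τ * r), len K z t ≤ 2.6 * t →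
      ∃ e, ∀ s ∈ Icc (t / 64) (t / 4),
        lenc K z s ≤ (2 + 1 / 20000) * s ∧ Close 2 (1 / 20000) K z s e := by
    intro z hz h1 t ht h2
    have h3 : Λ * t ≤ r / 4 := (mul_le_mul_of_nonneg_left ht.2 (by linarith)).trans hΛr
    exact (H1 Ω ε wk u K h z t hz ht.1 (sub z _ (by linarith)) (hsq t (by linarith [ht.2]))
      (low z hz h1 t _ ht.1 h3) h2).2
  have hy0 : ‖y - y‖ ≤ τ * r / 40 := by rw [sub_self, norm_zero]; positivity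
  obtain ⟨e₀, he₀⟩ := one y hy hy0 (τ * r) ⟨hτr, le_rfl⟩ (by linarith)
  have h0 := (he₀ (τ * r / 4) ⟨by linarith, le_rfl⟩).1
  have hs0 : closedBall y (τ * r / 4) ⊆ Ω := sub y _ (by linarith)
  have lle : ∀ z : ℂ, ‖z - y‖ ≤ τ * r / 40 → ∀ s ∈ Ioc 0 (τ * r), len K z s ≤ lenc K z s :=
    fun z h1 s hs => (h.toAM0.upper_real hs.1 (sub z s (by linarith [hs.2]))).2.2.2.2.2.2.2.1
  have all : ∀ z ∈ K, ‖z - y‖ ≤ τ * r / 40 → ∀ s ∈ Ioc 0 (τ * r / 40),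
      lenc K z s ≤ (2 + 1 / 20000) * s ∧ ∃ e, Close 2 (1 / 20000) K z s e := by
    intro z hz h1 s hs
    have h2 := ((h.toAM0.mono_real (by positivity) hs0).1 z (9 / 40 * (τ * r))
      (ball_subset_ball' (by rw [dist_eq_norm]; linarith))).2
    have h3 := lle y hy0 (τ * r / 4) ⟨by positivity, by linarith⟩
    exact down (t₁ := 9 / 40 * (τ * r)) (by norm_num)
      (fun s hs => lle z h1 s ⟨hs.1, by linarith [hs.2]⟩)
      (fun t ht => one z hz h1 t ⟨ht.1, by linarith [ht.2]⟩) (by linarith) s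
      ⟨hs.1, by linarith [hs.2]⟩
  refine ⟨fun z hz s hs h1 => ?_, fun z hz s hs h1 => ?_, fun z hz h1 η s₀ hη hs₀ => ?_⟩
  · obtain ⟨-, e, he⟩ := all z hz (by linarith) s ⟨hs, by linarith [norm_nonneg (z - y)]⟩
    exact ⟨e, close_two he⟩
  · have h2 := (all z hz (by linarith) s ⟨hs, by linarith [norm_nonneg (z - y)]⟩).1
    rw [(h.toAM0.upper_real hs (sub z s (by linarith))).2.2.1]
    exact ENNReal.ofReal_le_ofReal (by linarith)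
  · obtain ⟨Λ', ε', hΛ', hε', H2⟩ := H η hη
    have he := h.eps
    obtain ⟨t, ht, t1, t2, t3, t4⟩ : ∃ t : ℝ, 0 < t ∧ t ≤ τ * r / 40 ∧ t ≤ s₀ ∧
        t ≤ r / (4 * Λ') ∧ t ≤ (ε' / (ε + 1)) ^ 2 :=
      ⟨min (min (τ * r / 40) s₀) (min (r / (4 * Λ')) ((ε' / (ε + 1)) ^ 2)), by positivity,
        (min_le_left _ _).trans (min_le_left _ _), (min_le_left _ _).trans (min_le_right _ _),
        (min_le_right _ _).trans (min_le_left _ _), (min_le_right _ _).trans (min_le_right _ _)⟩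
    have h3 : Λ' * t ≤ r / 4 :=
      (mul_le_mul_of_nonneg_left t3 (by linarith)).trans_eq (by field_simp)
    have h4 : ε * √t ≤ ε' := by
      have h5 : √t ≤ ε' / (ε + 1) := Real.sqrt_le_iff.2 ⟨by positivity, t4⟩
      rw [le_div_iff₀ (by positivity)] at h5
      nlinarith [Real.sqrt_nonneg t]
    have h5 := (all z hz h1.le t ⟨ht, t1⟩).1
    have h6 := lle z h1.le t ⟨ht, by linarith⟩
    obtain ⟨-, e, he⟩ := H2 Ω ε wk u K h z t hz ht (sub z _ (by linarith)) h4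
      (low z hz h1.le t _ ht h3) (by linarith)
    exact ⟨t / 4, e, by positivity, by linarith, close_two (he _ ⟨by linarith, le_rfl⟩).2⟩

end

end Vale.Agent.P128.J
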