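import Vale.Agent.P128.J.Fl
import Vale.Agent.P128.J.Arm

/-! P128 J/Gr0 (TASK, owner helper27, notes/P128J.md). Helper names end with `_Gr0`.
The graph function. `up'`: `TanAt` at `t = ‖w - y‖`. `cone_cond`: `im_two` for `x, y` gives `|im (τ' conj e)| ≤ 2/1000` (if `y = x` use `Fl.dir` at a scale with `B (t/r)^(1/4) ≤ 1/4000`, `tendsto_q`); `ht y e w = im ((w - y) conj τ' * (τ' conj e))`.
`graph_fun`: `fill` for `A = K ∩ closedBall x (2h)`, `f = ab x e` on `(-3h/2, 3h/2)`, `y₀ = x`: for `y ∈ A` with `|ab| < 3h/2` one has `‖y - x‖ < 8h/5`; the points of `K` near `y ± σ τ'` (`Fl.low` at a small scale `σ`) are in `A`,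
their `ab` differ from that of `y` by opposite signs (`|re (τ' conj e)| ≥ 99/100`). Uniqueness from `cone_cond`, `norm_le_ab_ht`; `decomp`, `ab_pt`. -/

namespace Vale.Agent.P128.J

open MeasureTheory Set Metric Filter Topology
open scoped ENNReal ComplexConjugate

noncomputable section

variable {Ω K P M : Set ℂ} {ε r s t η ρ B : ℝ} {wk : Prop} {u : ℂ → ℝ} {x y e : ℂ}

theorem TanAt.unit {τ : ℂ} (h : TanAt K y ρ B r τ) (hρ : 0 < ρ) : ‖τ‖ = 1 :=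
  (h ρ ⟨hρ, le_rfl⟩).unit

theorem TanAt.up' {τ w : ℂ} (h : TanAt K y ρ B r τ) (hw : w ∈ K) (hρ : ‖w - y‖ ≤ ρ) :
    |ht y τ w| ≤ B * (‖w - y‖ / r) ^ (1 / 4 : ℝ) * ‖w - y‖ := by
  rcases (norm_nonneg (w - y)).eq_or_lt with h0 | h0
  · rw [← h0, mul_zero, ht, norm_eq_zero.1 h0.symm, zero_mul, Complex.zero_im, abs_zero]
  · exact (h _ ⟨h0, hρ⟩).up w hw le_rfl

theorem rate_Gr0 {a c : ℝ} (hr : 0 < r) (hB : 0 ≤ B) (ht : 0 ≤ t) (hta : t ≤ a)
    (hs : B * (a / r) ^ (1 / 4 : ℝ) ≤ c) : B * (t / r) ^ (1 / 4 : ℝ) ≤ c :=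
  (mul_le_mul_of_nonneg_left (Real.rpow_le_rpow (div_nonneg ht hr.le)
    (div_le_div_of_nonneg_right hta hr.le) (by norm_num)) hB).trans hs

theorem quarter_Gr0 {a : ℝ} (hr : 0 < r) (ha : 0 ≤ a) :
    (a / 256 / r) ^ (1 / 4 : ℝ) = (a / r) ^ (1 / 4 : ℝ) / 4 := by
  have h1 : ((4 : ℝ) ^ 4) ^ (1 / 4 : ℝ) = 4 := by
    rw [← Real.rpow_natCast, ← Real.rpow_mul (by norm_num)]
    norm_num
  rw [div_right_comm, Real.div_rpow (div_nonneg ha hr.le) (by norm_num),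
    show (256 : ℝ) = 4 ^ 4 by norm_num, h1]

theorem ht_split_Gr0 {τ : ℂ} (hτ : ‖τ‖ = 1) (y e w : ℂ) :
    ht y e w = ab y τ w * (τ * conj e).im + ht y τ w * (τ * conj e).re := by
  have h1 : (w - y) * conj e = (w - y) * conj τ * (τ * conj e) := by
    linear_combination (-(w - y) * conj e) * one_Alg0 hτ
  rw [ht, h1, Complex.mul_im]
  rfl

theorem cone_cond {h : ℝ} {τ w : ℂ} (hx : x ∈ K) (he : TanAt K x ρ B r e) (hr : 0 < r)
    (hB : 0 ≤ B) (hh : 0 < h) (hρ : 4 * h ≤ ρ) (hs : B * (4 * h / r) ^ (1 / 4 : ℝ) ≤ 1 / 1000)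
    (hy : y ∈ K) (hyx : ‖y - x‖ ≤ 2 * h) (hτ : TanAt K y ρ B r τ) :
    |(τ * conj e).im| ≤ 2 / 1000 ∧
      (w ∈ K → ‖w - x‖ ≤ 2 * h → |ht y e w| ≤ 3 / 1000 * ‖w - y‖) := by
  have hρ0 : 0 < ρ := by linarith
  have ue := he.unit hρ0
  have uτ := hτ.unit hρ0
  have key : ∀ {z v σ : ℂ}, TanAt K z ρ B r σ → v ∈ K → ‖v - z‖ ≤ 4 * h →
      |ht z σ v| ≤ 1 / 1000 * ‖v - z‖ := fun hz hv hvz =>
    (hz.up' hv (hvz.trans hρ)).trans
      (mul_le_mul_of_nonneg_right (rate_Gr0 hr hB (norm_nonneg _) hvz hs) (norm_nonneg _))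
  have h1 : |(τ * conj e).im| ≤ 2 / 1000 := by
    by_cases hne : y = x
    · subst hne
      have hm : 4 * h / 256 ∈ Ioc 0 ρ := ⟨by positivity, by linarith⟩
      have h2 := quarter_Gr0 hr (show 0 ≤ 4 * h by positivity)
      have h3 := (he _ hm).dir (hτ _ hm) hm.1 (by linarith) le_rfl
        (by rw [sub_self, norm_zero]; positivity) (by rw [h2]; linarith)
      rw [h2] at h3
      linarith
    · have h2 := key hτ hx (by rw [norm_sub_rev]; linarith)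
      rw [norm_sub_rev] at h2
      have h3 := im_two ue uτ hne (key he hy (by linarith)) h2
      linarith
  refine ⟨h1, fun hw hwx => ?_⟩
  have h2 : ‖w - y‖ ≤ 4 * h := by
    have := norm_sub_le_norm_sub_add_norm_sub w x y
    rw [norm_sub_rev x y] at this
    linarith
  have h3 : |(τ * conj e).re| ≤ 1 :=
    (Complex.abs_re_le_norm _).trans ((nrm_Alg0 ue τ).trans uτ).le
  have h4 := mul_le_mul (abs_ab_le uτ y w) h1 (abs_nonneg _) (norm_nonneg _)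
  have h5 := mul_le_mul (key hτ hw h2) h3 (abs_nonneg _) (by positivity)
  rw [ht_split_Gr0 uτ]
  refine (abs_add_le _ _).trans ?_
  rw [abs_mul, abs_mul]
  linarith

end

end Vale.Agent.P128.J
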