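import Vale.Agent.P128.J.Gr0

/-! P128 J/GrA (TASK, owner helper27, notes/P128J.md). Helper names end with `_GrA`.
The graph function. `up'`: `TanAt` at `t = ‖w - y‖`. `cone_cond`: `im_two` for `x, y` gives `|im (τ' conj e)| ≤ 2/1000` (if `y = x` use `Fl.dir` at a scale with `B (t/r)^(1/4) ≤ 1/4000`, `tendsto_q`); `ht y e w = im ((w - y) conj τ' * (τ' conj e))`.
`graph_fun`: `fill` for `A = K ∩ closedBall x (2h)`, `f = ab x e` on `(-3h/2, 3h/2)`, `y₀ = x`: for `y ∈ A` with `|ab| < 3h/2` one has `‖y - x‖ < 8h/5`; the points of `K` near `y ± σ τ'` (`Fl.low` at a small scale `σ`) are in `A`,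
their `ab` differ from that of `y` by opposite signs (`|re (τ' conj e)| ≥ 99/100`). Uniqueness from `cone_cond`, `norm_le_ab_ht`; `decomp`, `ab_pt`. -/

namespace Vale.Agent.P128.J

open MeasureTheory Set Metric Filter Topology
open scoped ENNReal ComplexConjugate

noncomputable section

variable {Ω K P M : Set ℂ} {ε r s t η ρ B : ℝ} {wk : Prop} {u : ℂ → ℝ} {x y e : ℂ}

theorem abl_GrA (y e τ : ℂ) (t : ℝ) : ab y e (y + t * τ) = t * (τ * conj e).re := by
  unfold ab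
  have : (y + t * τ - y) * conj e = (t : ℂ) * (τ * conj e) := by ring
  rw [this, Complex.re_ofReal_mul]

theorem near_GrA {h σ c : ℝ} {τ : ℂ} (he : ‖e‖ = 1) (hτ : TanAt K y ρ B r τ) (hr : 0 < r)
    (hB : 0 ≤ B) (hρ : 4 * h ≤ ρ) (hs : B * (4 * h / r) ^ (1 / 4 : ℝ) ≤ 1 / 1000)
    (hσ : 0 < σ) (hσh : σ ≤ 4 * h) (hc : |c| ≤ 1) :
    ∃ w ∈ K, ‖w - y‖ ≤ 1001 / 1000 * σ ∧
      |ab y e w - σ * c * (τ * conj e).re| ≤ σ / 1000 := by
  have hF := hτ σ ⟨hσ, hσh.trans hρ⟩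
  have hq : B * (σ / r) ^ (1 / 4 : ℝ) ≤ 1 / 1000 := (q_mono hr hB hσ.le hσh).trans hs
  have ht : |σ * c| ≤ σ := by
    rw [abs_mul, abs_of_pos hσ]
    nlinarith
  obtain ⟨w, hw, hd⟩ := hF.low (σ * c) ht
  have hd' : ‖w - (y + ((σ * c : ℝ) : ℂ) * τ)‖ ≤ σ / 1000 := by
    refine hd.trans ?_
    nlinarith
  refine ⟨w, hw, ?_, ?_⟩
  · have h1 : w - y = (w - (y + ((σ * c : ℝ) : ℂ) * τ)) + ((σ * c : ℝ) : ℂ) * τ := by ring
    have h2 : ‖((σ * c : ℝ) : ℂ) * τ‖ ≤ σ := by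
      rw [norm_mul, hF.unit, mul_one, Complex.norm_real, Real.norm_eq_abs]
      exact ht
    rw [h1]
    refine (norm_add_le _ _).trans ?_
    linarith
  · have h3 := lip_ab he y w (y + ((σ * c : ℝ) : ℂ) * τ)
    rw [abl_GrA] at h3
    exact h3.trans hd'

theorem graph_fun {h : ℝ} (hK : IsClosed K) (hx : x ∈ K) (hT : Tan K x ρ B r)
    (he : TanAt K x ρ B r e) (hr : 0 < r) (hB : 0 ≤ B) (hh : 0 < h) (hρ : 4 * h ≤ ρ)
    (hs : B * (4 * h / r) ^ (1 / 4 : ℝ) ≤ 1 / 1000) :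
    ∃ φ : ℝ → ℝ, φ 0 = 0 ∧ ∀ a ∈ Ioo (-(3 / 2 * h)) (3 / 2 * h),
      x + e * ((a : ℂ) + (φ a : ℂ) * Complex.I) ∈ K ∩ closedBall x (2 * h) ∧
      ∀ b : ℝ, x + e * ((a : ℂ) + (b : ℂ) * Complex.I) ∈ K ∩ closedBall x (2 * h) → b = φ a := by
  classical
  have hρ0 : 0 < ρ := by linarith
  have he1 : ‖e‖ = 1 := he.unit hρ0
  set A : Set ℂ := K ∩ closedBall x (2 * h) with hA
  have hAc : IsCompact A := (isCompact_closedBall x (2 * h)).inter_left hK
  have hxA : x ∈ A := ⟨hx, mem_closedBall_self (by linarith)⟩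
  have hnorm : ∀ w ∈ A, ‖w - x‖ ≤ 2 * h := fun w hw => by
    have := hw.2
    rwa [mem_closedBall, dist_eq_norm] at this
  have hcone : ∀ y ∈ A, ∀ w ∈ A, |ht y e w| ≤ 3 / 1000 * ‖w - y‖ := fun y hy w hw => by
    obtain ⟨τ, hτ⟩ := hT y hy.1 ((hnorm y hy).trans (by linarith))
    exact (cone_cond (w := w) hx he hr hB hh hρ hs hy.1 (hnorm y hy) hτ).2 hw.1 (hnorm w hw)
  have hinj : ∀ y ∈ A, ∀ w ∈ A, ab x e w = ab x e y → w = y := fun y hy w hw hab => by
    have h1 := hcone y hy w hw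
    have h2 := norm_le_ab_ht he1 y w
    have h3 : ab y e w = 0 := by rw [← ab_sub x e w y, hab, sub_self]
    rw [h3, abs_zero, zero_add] at h2
    have h4 : ‖w - y‖ ≤ 0 := by linarith
    exact sub_eq_zero.1 (norm_le_zero_iff.1 h4)
  have hab0 : ab x e x = 0 := by simp [ab]
  have hfill : Ioo (-(3 / 2 * h)) (3 / 2 * h) ⊆ ab x e '' A := by
    refine fill hAc (continuous_ab x e).continuousOn ?_ hxA ?_
    · intro y hy hyI δ hδ
      have hy1 : ‖y - x‖ ≤ 8 / 5 * h := by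
        have h1 := hcone x hxA y hy
        have h2 := norm_le_ab_ht he1 x y
        have h3 : |ab x e y| ≤ 3 / 2 * h := abs_le.2 ⟨hyI.1.le, hyI.2.le⟩
        linarith
      obtain ⟨τ, hτ⟩ := hT y hy.1 ((hnorm y hy).trans (by linarith))
      have hτ1 : ‖τ‖ = 1 := hτ.unit hρ0
      have him := (cone_cond (w := x) hx he hr hB hh hρ hs hy.1 (hnorm y hy) hτ).1
      set c : ℝ := (τ * conj e).re with hc
      have hn : ‖τ * conj e‖ = 1 := by rw [nrm_Alg0 he1, hτ1]
      have hc1 : |c| ≤ 1 := by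
        rw [← hn]
        exact Complex.abs_re_le_norm _
      have hsq : c ^ 2 + (τ * conj e).im ^ 2 = 1 := by
        have h5 := Complex.sq_norm (τ * conj e)
        rw [hn, Complex.normSq_apply] at h5
        rw [hc]
        nlinarith
      have him2 : (τ * conj e).im ^ 2 ≤ (2 / 1000) ^ 2 := by
        rw [← sq_abs]
        exact pow_le_pow_left₀ (abs_nonneg _) him 2
      have hcc : 99 / 100 ≤ c * c := by nlinarith
      have hcc' : c * c ≤ 1 := by nlinarith [sq_nonneg (τ * conj e).im]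
      set σ : ℝ := min (h / 4) (δ / 2) with hσ
      have hσ0 : 0 < σ := lt_min (by linarith) (by linarith)
      have hσ1 : σ ≤ h / 4 := min_le_left _ _
      have hσ2 : σ ≤ δ / 2 := min_le_right _ _
      have hmem : ∀ w ∈ K, ‖w - y‖ ≤ 1001 / 1000 * σ → w ∈ A := fun w hw hd => by
        refine ⟨hw, ?_⟩
        rw [mem_closedBall, dist_eq_norm]
        have h1 : w - x = (w - y) + (y - x) := by ring
        rw [h1]
        refine (norm_add_le _ _).trans ?_
        linarith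
      have hlo : 99 / 100 * σ ≤ σ * (c * c) := by nlinarith
      have hhi : σ * (c * c) ≤ σ := by nlinarith
      constructor
      · obtain ⟨w, hw, hd, hab⟩ := near_GrA (c := c) he1 hτ hr hB hρ hs hσ0 (by linarith) hc1
        rw [← hc, mul_assoc] at hab
        have h1 := ab_sub x e w y
        have h2 := abs_le.1 hab
        exact ⟨w, hmem w hw hd, by linarith [h2.1], by linarith [h2.2]⟩
      · obtain ⟨w, hw, hd, hab⟩ := near_GrA (c := -c) he1 hτ hr hB hρ hs hσ0 (by linarith)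
          (by rwa [abs_neg])
        have h0 : σ * -c * (τ * conj e).re = -(σ * (c * c)) := by rw [← hc]; ring
        rw [h0] at hab
        have h1 := ab_sub x e w y
        have h2 := abs_le.1 hab
        exact ⟨w, hmem w hw hd, by linarith [h2.1], by linarith [h2.2]⟩
    · rw [hab0]
      exact ⟨by linarith, by linarith⟩
  have hex : ∀ a ∈ Ioo (-(3 / 2 * h)) (3 / 2 * h), ∃ b : ℝ,
      x + e * ((a : ℂ) + (b : ℂ) * Complex.I) ∈ A := fun a ha => by
    obtain ⟨w, hw, hwa⟩ := hfill ha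
    refine ⟨ht x e w, ?_⟩
    have h1 := decomp he1 x w
    rw [hwa] at h1
    have h2 : x + e * ((a : ℂ) + (ht x e w : ℂ) * Complex.I) = w := by
      rw [mul_comm e, ← h1]
      ring
    rwa [h2]
  have huq : ∀ a b b' : ℝ, x + e * ((a : ℂ) + (b : ℂ) * Complex.I) ∈ A →
      x + e * ((a : ℂ) + (b' : ℂ) * Complex.I) ∈ A → b = b' := fun a b b' hb hb' => by
    have h1 := hinj _ hb' _ hb (by rw [(ab_pt he1 x a b).1, (ab_pt he1 x a b').1])
    have h2 := (ab_pt he1 x a b).2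
    rw [h1, (ab_pt he1 x a b').2] at h2
    exact h2.symm
  refine ⟨fun a => if ha : a ∈ Ioo (-(3 / 2 * h)) (3 / 2 * h) then (hex a ha).choose else 0, ?_,
    fun a ha => ?_⟩
  · have h0 : (0 : ℝ) ∈ Ioo (-(3 / 2 * h)) (3 / 2 * h) := ⟨by linarith, by linarith⟩
    simp only [dif_pos h0]
    refine huq 0 _ 0 (hex 0 h0).choose_spec ?_
    simpa using hxA
  · simp only [dif_pos ha]
    exact ⟨(hex a ha).choose_spec, fun b hb => huq a b _ hb (hex a ha).choose_spec⟩

end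

end Vale.Agent.P128.J
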