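import Vale.Agent.P128.J.Ori
import Vale.Agent.P128.TA2.Main

/-! P128 J/Lab (TASK, owner helper27, notes/P128J.md). Helper names end with `_Lab`.
The two sides. `R = 16 r`, `r_k = R / 2^k`, `e` from `orient`. `P = {p | ∃ k, ∃ y ∈ K, ‖y - x‖ ≤ R/4 ∧ ‖p - y‖ < r_k / 8 ∧ r_k / 32 < ht y (e k y) p}`, `M` with `ht < -(r_k / 32)`.
Open: unions of open sets. Disjoint from `K` by `Fl.up`. Disjoint: if `p` is given by `(k, y)` and `(k', y')`, `k ≤ k'` (both orders): `y' ∈ K` is within `r_k / 4` of `y`, so `|ht y _ y'| ≤ η r_k` and `r_k / 32 - η r_k ≤ ‖p - y'‖ < r_k' / 8`,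
so `k' ≤ k + 2`, `‖e k y - e k' y'‖ ≤ 48 η`, `ht_dir`, `ht_sub` give equal signs. `cover`: `y` a nearest point of `K` (`IsClosed.exists_infDist_eq_dist`), `d = ‖p - y‖ ≤ r`, `r_k / 16 ≤ d < r_k / 8` (`scale`),
`d ≤ |ht| + η r_k` by `norm_foot`, `Fl.low`. `side`: `scale` for `s`, `Fl.mono`; the convex set `{‖p - y‖ ≤ s, 16 η s < ht}` is inside `P ∪ M` and contains `y + I s e ∈ P`: `IsPreconnected.subset_left_of_subset_union`. -/

namespace Vale.Agent.P128.J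

open MeasureTheory Set Metric Filter Topology
open scoped ENNReal ComplexConjugate

noncomputable section

variable {Ω K P M : Set ℂ} {ε r s t η ρ B : ℝ} {wk : Prop} {u : ℂ → ℝ} {x y e : ℂ}

theorem scale {R d : ℝ} (hd : 0 < d) (hR : d ≤ R / 16) :
    ∃ k : ℕ, R / 2 ^ k / 16 ≤ d ∧ d < R / 2 ^ k / 8 := by
  classical
  have hex : ∃ k : ℕ, R / 2 ^ k / 16 ≤ d := by
    obtain ⟨k, hk⟩ := pow_unbounded_of_one_lt (R / 16 / d) (one_lt_two (α := ℝ))
    refine ⟨k, ?_⟩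
    rw [div_lt_iff₀ hd] at hk
    rw [div_right_comm, div_le_iff₀ (by positivity)]
    linarith
  refine ⟨Nat.find hex, Nat.find_spec hex, ?_⟩
  cases hk : Nat.find hex with
  | zero => rw [pow_zero]; linarith
  | succ j =>
    have := Nat.find_min hex (m := j) (by omega)
    rw [pow_succ, ← div_div]
    linarith

/-- The output of `orient`. -/
structure Ori_Lab (K : Set ℂ) (x : ℂ) (R η : ℝ) (e : ℕ → ℂ → ℂ) : Prop where
  fl : ∀ k, ∀ y ∈ K, ‖y - x‖ ≤ R / 4 → Fl K y (R / 2 ^ k) η (e k y)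
  sc : ∀ k, ∀ y ∈ K, ‖y - x‖ ≤ R / 4 → ‖e k y - e (k + 1) y‖ ≤ 16 * η
  pt : ∀ k, ∀ y ∈ K, ∀ y' ∈ K, ‖y - x‖ ≤ R / 4 → ‖y' - x‖ ≤ R / 4 → ‖y' - y‖ ≤ R / 2 ^ k / 2 →
    ‖e k y - e k y'‖ ≤ 16 * η

/-- The upper side. -/
def Sd_Lab (K : Set ℂ) (x : ℂ) (R : ℝ) (e : ℕ → ℂ → ℂ) : Set ℂ :=
  {p | ∃ k, ∃ y ∈ K, ‖y - x‖ ≤ R / 4 ∧ ‖p - y‖ < R / 2 ^ k / 8 ∧ R / 2 ^ k / 32 < ht y (e k y) p}

variable {R : ℝ} {E : ℕ → ℂ → ℂ}

theorem neg_Lab (h : Ori_Lab K x R η E) : Ori_Lab K x R η (-E) where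
  fl k y hy h1 := (h.fl k y hy h1).neg
  sc k y hy h1 := by
    simp only [Pi.neg_apply, neg_sub_neg]
    rw [norm_sub_rev]
    exact h.sc k y hy h1
  pt k y hy y' hy' h1 h2 h3 := by
    simp only [Pi.neg_apply, neg_sub_neg]
    rw [norm_sub_rev]
    exact h.pt k y hy y' hy' h1 h2 h3

theorem open_Lab : IsOpen (Sd_Lab K x R E) := by
  refine isOpen_iff_mem_nhds.2 ?_
  rintro p ⟨k, y, hy, h1, h2, h3⟩
  filter_upwards [(isOpen_lt (continuous_id.sub continuous_const).norm continuous_const).mem_nhds h2,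
    (isOpen_lt continuous_const (continuous_ht y (E k y))).mem_nhds h3] with q h4 h5
  exact ⟨k, y, hy, h1, h4, h5⟩

theorem disjK_Lab (h : Ori_Lab K x R η E) (hR : 0 < R) (hη : η ≤ 1 / 1000) :
    Disjoint (Sd_Lab K x R E) K := by
  refine disjoint_left.2 ?_
  rintro p ⟨k, y, hy, h1, h2, h3⟩ hp
  have h0 : 0 < R / 2 ^ k := by positivity
  have h4 := (abs_le.1 ((h.fl k y hy h1).up p hp (by linarith))).2
  nlinarith

theorem key_Lab (h : Ori_Lab K x R η E) (hR : 0 < R) (hη : η ≤ 1 / 1000) {k k' : ℕ} (hk : k ≤ k')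
    {p y' : ℂ} (hy : y ∈ K) (hy' : y' ∈ K) (h1 : ‖y - x‖ ≤ R / 4) (h1' : ‖y' - x‖ ≤ R / 4)
    (h2 : ‖p - y‖ < R / 2 ^ k / 8) (h2' : ‖p - y'‖ < R / 2 ^ k' / 8)
    (h3 : R / 2 ^ k / 32 < ht y (E k y) p) : 0 ≤ ht y' (E k' y') p := by
  have h0 : 0 < R / 2 ^ k := by positivity
  have hm : ∀ {a b : ℕ}, a ≤ b → R / 2 ^ b ≤ R / 2 ^ a := fun hab =>
    div_le_div_of_nonneg_left hR.le (by positivity) (pow_le_pow_right₀ one_le_two hab)
  have hf := h.fl k y hy h1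
  have hη0 := hf.nonneg h0
  have h4 : ‖y' - y‖ ≤ R / 2 ^ k / 4 := by
    have : ‖y' - y‖ ≤ ‖p - y‖ + ‖p - y'‖ := by
      rw [show y' - y = (p - y) - (p - y') by ring]
      exact norm_sub_le _ _
    linarith [hm hk]
  have h5 := (abs_le.1 (hf.up y' hy' (by linarith))).2
  have h6 := ht_sub y (E k y) p y'
  have h7 := (abs_le.1 (abs_ht_le hf.unit y' p)).2
  have h8 : η * (R / 2 ^ k) ≤ 1 / 1000 * (R / 2 ^ k) := mul_le_mul_of_nonneg_right hη h0.le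
  have h9 : k' ≤ k + 2 := by
    by_contra hc
    have := hm (a := k + 3) (b := k') (by omega)
    rw [pow_add, ← div_div] at this
    norm_num at this
    linarith
  have a1 := h.pt k y hy y' hy' h1 h1' (by linarith)
  have a2 := h.sc k y' hy' h1'
  have a3 := h.sc (k + 1) y' hy' h1'
  have a4 : ‖E k y - E k' y'‖ ≤ 48 * η := by
    have t1 := norm_sub_le_norm_sub_add_norm_sub (E k y) (E k y') (E (k + 1) y')
    have t2 := norm_sub_le_norm_sub_add_norm_sub (E k y) (E (k + 1) y') (E (k + 1 + 1) y')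
    obtain rfl | rfl | rfl : k' = k ∨ k' = k + 1 ∨ k' = k + 1 + 1 := by omega
    all_goals linarith
  have a5 := (abs_le.1 (ht_dir y' (E k y) (E k' y') p)).2
  have a6 : ‖p - y'‖ * ‖E k y - E k' y'‖ ≤ R / 2 ^ k / 8 * (48 * η) :=
    mul_le_mul (by linarith [hm hk]) a4 (norm_nonneg _) (by positivity)
  linarith

theorem disj_Lab (h : Ori_Lab K x R η E) (hR : 0 < R) (hη : η ≤ 1 / 1000) :
    Disjoint (Sd_Lab K x R E) (Sd_Lab K x R (-E)) := by
  refine disjoint_left.2 ?_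
  rintro p ⟨k, y, hy, h1, h2, h3⟩ ⟨k', y', hy', h1', h2', h3'⟩
  have h0 : 0 < R / 2 ^ k := by positivity
  have h0' : 0 < R / 2 ^ k' := by positivity
  rcases le_total k k' with hk | hk
  · have := key_Lab h hR hη hk hy hy' h1 h1' h2 h2' h3
    rw [Pi.neg_apply, Pi.neg_apply, ht_neg] at h3'
    linarith
  · have := key_Lab (neg_Lab h) hR hη hk hy' hy h1' h1 h2' h2 h3'
    rw [Pi.neg_apply, Pi.neg_apply, ht_neg] at this
    linarith

theorem cover_Lab (h : Ori_Lab K x R η E) (hη : η ≤ 1 / 1000) (hK : IsClosed K)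
    (hx : x ∈ K) {p : ℂ} (hp : ‖p - x‖ ≤ R / 16) (hp' : p ∉ K) :
    p ∈ Sd_Lab K x R E ∨ p ∈ Sd_Lab K x R (-E) := by
  obtain ⟨y, hy, hd⟩ := hK.exists_infDist_eq_dist ⟨x, hx⟩ p
  have hn : ∀ w ∈ K, ‖p - y‖ ≤ ‖p - w‖ := fun w hw => by
    rw [← dist_eq_norm, ← dist_eq_norm, ← hd]
    exact infDist_le_dist_of_mem hw
  have h0 : 0 < ‖p - y‖ := norm_pos_iff.2 (sub_ne_zero.2 fun e => hp' (e ▸ hy))
  have h1 := hn x hx
  have h2 : ‖y - x‖ ≤ R / 4 := by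
    have := norm_sub_le_norm_sub_add_norm_sub y p x
    rw [norm_sub_rev y p] at this
    linarith
  obtain ⟨k, h3, h4⟩ := scale h0 (h1.trans hp)
  have hf := h.fl k y hy h2
  obtain ⟨w, hw, h5⟩ := hf.low (ab y (E k y) p) ((abs_ab_le hf.unit y p).trans (by linarith))
  have h6 := norm_foot hf.unit y p
  have h7 := norm_sub_le_norm_sub_add_norm_sub p (y + (ab y (E k y) p : ℝ) * E k y) w
  rw [norm_sub_rev] at h5
  rw [h6] at h7
  have h8 : η * (R / 2 ^ k) ≤ 1 / 1000 * (R / 2 ^ k) :=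
    mul_le_mul_of_nonneg_right hη (by linarith)
  have h9 : R / 2 ^ k / 32 < |ht y (E k y) p| := by linarith [hn w hw]
  rcases lt_abs.1 h9 with a | a
  · exact Or.inl ⟨k, y, hy, h2, h4, a⟩
  · exact Or.inr ⟨k, y, hy, h2, h4, by rwa [Pi.neg_apply, Pi.neg_apply, ht_neg]⟩

theorem top_Lab (h : Ori_Lab K x R η E) (hR : 0 < R) (hη : η ≤ 1 / 1000) (hK : IsClosed K)
    (hx : x ∈ K) (hy : y ∈ K) (hs : 0 < s) (hr : ‖y - x‖ + s ≤ R / 16) {k : ℕ}
    (h1 : R / 2 ^ k / 16 ≤ s) (h2 : s < R / 2 ^ k / 8) : Fl K y s (16 * η) (E k y) ∧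
      ∀ p, ‖p - y‖ ≤ s → 16 * η * s < ht y (E k y) p → p ∈ Sd_Lab K x R E := by
  have h3 : ‖y - x‖ ≤ R / 4 := by linarith
  have hf := h.fl k y hy h3
  have hη0 := hf.nonneg (by positivity)
  have hf' : Fl K y s (16 * η) (E k y) := hf.mono (by linarith) (by nlinarith)
  refine ⟨hf', fun p a1 a2 => ?_⟩
  have hc : Convex ℝ (closedBall y s ∩
      {p : ℂ | 16 * η * s + (y * conj (E k y)).im < (p * conj (E k y)).im}) :=
    (convex_closedBall y s).inter (convex_halfSpace_gt (f := fun p : ℂ => (p * conj (E k y)).im)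
      ⟨fun a b => by rw [add_mul, Complex.add_im], fun a b => by
        rw [smul_mul_assoc, Complex.smul_im]⟩ _)
  have hm : ∀ q, q ∈ closedBall y s ∩
      {p : ℂ | 16 * η * s + (y * conj (E k y)).im < (p * conj (E k y)).im} ↔
      ‖q - y‖ ≤ s ∧ 16 * η * s < ht y (E k y) q := fun q => by
    rw [mem_inter_iff, mem_closedBall, dist_eq_norm, mem_setOf_eq, ht, sub_mul, Complex.sub_im,
      lt_sub_iff_add_lt]
  refine hc.isPreconnected.subset_left_of_subset_union open_Lab open_Lab (disj_Lab h hR hη)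
    (fun q hq => ?_) ⟨y + E k y * (((0 : ℝ) : ℂ) + (s : ℂ) * Complex.I), ?_⟩ ((hm p).2 ⟨a1, a2⟩)
  · obtain ⟨b1, b2⟩ := (hm q).1 hq
    refine cover_Lab h hη hK hx ?_ fun hq' => ?_
    · linarith [norm_sub_le_norm_sub_add_norm_sub q y x]
    · linarith [(abs_le.1 (hf'.up q hq' b1)).2]
  · have b1 := (ab_pt hf.unit y 0 s).2
    have b2 : ‖y + E k y * (((0 : ℝ) : ℂ) + (s : ℂ) * Complex.I) - y‖ = s := by
      simp [hf.unit, abs_of_pos hs]
    exact ⟨(hm _).2 ⟨b2.le, by rw [b1]; nlinarith⟩, k, y, hy, h3, by linarith, by linarith⟩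

theorem lab_of_rfl (hK : IsClosed K) (hx : x ∈ K) (hr : 0 < r) (h : RFl K x (20 * r) η)
    (hη : η ≤ 1 / 1000) : ∃ P M, Lab K x r (16 * η) P M := by
  have hR : 0 < 16 * r := by positivity
  obtain ⟨E, h1, h2⟩ := orient hx hR (by rwa [show 5 / 4 * (16 * r) = 20 * r by ring]) hη
  have ho : Ori_Lab K x (16 * r) η E :=
    ⟨fun k y hy a => (h1 k y hy a).1, fun k y hy a => (h1 k y hy a).2, h2⟩
  refine ⟨_, _, open_Lab, open_Lab, disj_Lab ho hR hη, disjK_Lab ho hR hη,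
    disjK_Lab (neg_Lab ho) hR hη, fun p a b => cover_Lab ho hη hK hx (by linarith) b,
    fun y hy s hs a => ?_⟩
  obtain ⟨k, b1, b2⟩ := scale (R := 16 * r) hs (by linarith [norm_nonneg (y - x)])
  obtain ⟨c1, c2⟩ := top_Lab ho hR hη hK hx hy hs (by linarith) b1 b2
  obtain ⟨-, c3⟩ := top_Lab (neg_Lab ho) hR hη hK hx hy hs (by linarith) b1 b2
  refine ⟨E k y, c1, c2, fun p d1 d2 => c3 p d1 ?_⟩
  rw [Pi.neg_apply, Pi.neg_apply, ht_neg]
  linarith

theorem Side.neg (h : Side K P M y s η e) : Side K M P y s η (-e) :=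
  ⟨h.fl.neg, fun p a b => h.bot p a (by rw [ht_neg] at b; linarith),
    fun p a b => h.top p a (by rw [ht_neg] at b; linarith)⟩

theorem Lab.symm (h : Lab K x r η P M) : Lab K x r η M P :=
  ⟨h.oM, h.oP, h.dPM.symm, h.dM, h.dP, fun p a b => (h.cover p a b).symm, fun y hy s hs a =>
    let ⟨e, he⟩ := h.side y hy s hs a
    ⟨-e, he.neg⟩⟩

theorem Lab.rfl (h : Lab K x r η P M) : RFl K x r η := fun y hy s hs a =>
  let ⟨e, he⟩ := h.side y hy s hs a
  ⟨e, he.fl⟩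

theorem Lab.lc (h : Lab K x r η P M) (hρ : ‖y - x‖ + ρ ≤ r) :
    LC (ball y ρ \ K) (P.indicator 1) := by
  intro z hz
  have h1 : ‖z - x‖ ≤ r := by
    linarith [norm_sub_le_norm_sub_add_norm_sub z y x, mem_ball_iff_norm.1 hz.1]
  rcases h.cover z h1 hz.2 with a | a
  · filter_upwards [h.oP.mem_nhds a] with w hw
    rw [indicator_of_mem hw, indicator_of_mem a]
    rfl
  · filter_upwards [h.oM.mem_nhds a] with w hw
    rw [indicator_of_notMem (disjoint_right.1 h.dPM hw),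
      indicator_of_notMem (disjoint_right.1 h.dPM a)]

end

end Vale.Agent.P128.J
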