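import Vale.Agent.P128.J.Meas
import Vale.Agent.P128.TC.Main

/-! P128 J/LenUp (TASK, owner helper27, notes/P128J.md). Helper names end with `_LenUp`.
The cone competitor on a good circle. `good_cone`: `good_radius` with `F = Dp u K y` on `(s, 2s)`, `M = A (2s) √(2s/r)` (`polar`, `AM0.upper_real`), `G = {t | cnt K y t = N}`, `β = s/2`, `P = True`; then `T6` with
`P = (finite set).toFinset` (`Set.finite_of_encard_eq_coe`), `μH ≤ En`, `ε t √t ≤ 2 s √(2 s / r)` from `AM0.small`. `A' = 12000 A + 3`. `lenup`: `O = y`, the sum is `N t`, then `len_down`. -/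

namespace Vale.Agent.P128.J

open MeasureTheory Set Metric Filter Topology
open scoped ENNReal ComplexConjugate

noncomputable section

variable {Ω K P M : Set ℂ} {ε r s t η ρ B : ℝ} {wk : Prop} {u : ℂ → ℝ} {x y e : ℂ}

theorem sqrt_LenUp (hr : 0 < r) (hs : 0 < s) (ht : t ≤ 2 * s) : √(t / r) ≤ 3 / 2 * √(s / r) := by
  have h0 : 0 ≤ s / r := by positivity
  refine Real.sqrt_le_iff.2 ⟨by positivity, ?_⟩
  rw [mul_pow, Real.sq_sqrt h0]
  have h1 : t / r ≤ 2 * s / r := div_le_div_of_nonneg_right ht hr.le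
  rw [mul_div_assoc] at h1
  linarith

theorem vol_LenUp {G : ℝ → Prop} (hs : 0 < s)
    (hv : volume {t | t ∈ Ioo s (2 * s) ∧ ¬ G t} ≤ ENNReal.ofReal (s / 2)) :
    ENNReal.ofReal (s / 2) ≤ volume (Ioo s (2 * s) ∩ {t | G t}) := by
  have h1 : Ioo s (2 * s) ⊆ (Ioo s (2 * s) ∩ {t | G t}) ∪ {t | t ∈ Ioo s (2 * s) ∧ ¬ G t} :=
    fun t ht => (em (G t)).elim (fun h => Or.inl ⟨ht, h⟩) fun h => Or.inr ⟨ht, h⟩
  have h2 := ((measure_mono (μ := volume) h1).trans (measure_union_le _ _)).trans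
    (add_le_add le_rfl hv)
  rw [Real.volume_Ioo, show 2 * s - s = s / 2 + s / 2 by ring,
    ENNReal.ofReal_add (by positivity) (by positivity)] at h2
  exact (ENNReal.add_le_add_iff_right ENNReal.ofReal_ne_top).1 h2

theorem good_cone {A : ℝ} (hA : 0 < A) (h : AM0 Ω ε wk u K) (hr : 0 < r)
    (hB : closedBall y r ⊆ Ω) (hD : ∀ s ∈ Ioc 0 r, D u K y s ≤ A * s * √(s / r)) {N : ℕ}
    (hs : 0 < s) (hsr : 2 * s ≤ r)
    (hv : volume {t | t ∈ Ioo s (2 * s) ∧ cnt K y t ≠ N} ≤ ENNReal.ofReal (s / 2)) :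
    ∃ t ∈ Ioo s (2 * s), ∃ F : Finset ℂ, (F : Set ℂ) = K ∩ sphere y t ∧ F.card = N ∧
      ∀ O ∈ closedBall y (t / 2), μH[1] (K ∩ closedBall y t) ≤
        ENNReal.ofReal (∑ p ∈ F, dist p O + (12000 * A + 3) * s * √(s / r)) := by
  have hq := Real.sqrt_nonneg (s / r)
  have h2 : 0 < 2 * s := by positivity
  obtain ⟨m1, _, m3⟩ := polar h.closed u y
  have hI : ∫⁻ t in Ioo s (2 * s), Dp u K y t ≤ ENNReal.ofReal (3 * A * s * √(s / r)) := by
    refine (lintegral_mono_set (Ioo_subset_Ioo_left hs.le)).trans ?_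
    rw [← (m3 (2 * s)).1, (h.upper_real h2 ((closedBall_subset_closedBall hsr).trans hB)).2.1]
    refine ENNReal.ofReal_le_ofReal ((hD _ ⟨h2, hsr⟩).trans ?_)
    have h3 := mul_le_mul_of_nonneg_left (sqrt_LenUp hr hs le_rfl) (mul_pos hA h2).le
    linarith
  obtain ⟨t, ⟨ht, hc⟩, _, hF⟩ := good_radius (by linarith) (by positivity) m1 hI
    (G := {t | cnt K y t = N}) (measurable_cnt h.closed y (measurableSet_singleton _))
    (half_pos hs) (vol_LenUp (G := fun t => cnt K y t = N) hs hv) (P := fun _ => True)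
    (ae_of_all _ fun _ => trivial)
  have ht0 : 0 < t := hs.trans ht.1
  have hc' : (K ∩ sphere y t).encard = N := by
    have h3 : ((K ∩ sphere y t).encard : ℝ≥0∞) = ((N : ℕ∞) : ℝ≥0∞) := hc
    exact ENat.toENNReal_inj.1 h3
  have hfin := Set.finite_of_encard_eq_coe hc'
  refine ⟨t, ht, hfin.toFinset, hfin.coe_toFinset, ?_, fun O hO => ?_⟩
  · rw [hfin.encard_eq_coe_toFinset_card] at hc'
    exact_mod_cast hc'
  · have h3 := T6 h ht0 ((closedBall_subset_closedBall (ht.2.le.trans hsr)).trans hB)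
      hfin.coe_toFinset hO
    have h4 : ε * t * √t ≤ 3 * s * √(s / r) := by
      have h5 : √t = √r * √(t / r) := by
        rw [← Real.sqrt_mul hr.le, mul_div_cancel₀ _ hr.ne']
      have h6 : ε * √t ≤ 3 / 2 * √(s / r) := by
        rw [h5, ← mul_assoc]
        exact (mul_le_of_le_one_left (Real.sqrt_nonneg _) (h.small y r hr hB)).trans
          (sqrt_LenUp hr hs ht.2.le)
      have h7 := mul_le_mul ht.2.le h6 (mul_nonneg h.eps (Real.sqrt_nonneg _)) h2.le
      linarith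
    have h5 : ENNReal.ofReal (1000 * t) * Dp u K y t ≤
        ENNReal.ofReal (12000 * A * s * √(s / r)) := by
      refine (mul_le_mul_right hF _).trans ?_
      rw [← ENNReal.ofReal_mul (by positivity)]
      refine ENNReal.ofReal_le_ofReal ?_
      have e : 3 * A * s * √(s / r) / (s / 2) = 6 * (A * √(s / r)) := by
        field_simp
        norm_num
      have h6 := mul_le_mul_of_nonneg_right ht.2.le (mul_nonneg hA.le hq)
      rw [e]
      linarith
    refine (le_add_self.trans h3).trans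
      ((add_le_add (add_le_add le_rfl h5) (ENNReal.ofReal_le_ofReal h4)).trans (le_of_eq ?_))
    have h6 : 0 ≤ ∑ p ∈ hfin.toFinset, dist p O := Finset.sum_nonneg fun _ _ => dist_nonneg
    rw [← ENNReal.ofReal_add h6 (by positivity), ← ENNReal.ofReal_add (by positivity) (by positivity)]
    congr 1
    ring

theorem lenup {A : ℝ} (hA : 0 < A) (h : AM0 Ω ε wk u K) (hr : 0 < r)
    (hB : closedBall y r ⊆ Ω) (hD : ∀ s ∈ Ioc 0 r, D u K y s ≤ A * s * √(s / r)) {N : ℕ}
    (hN : ∀ t ∈ Ioo 0 r, (N : ℝ≥0∞) ≤ cnt K y t) (hs : 0 < s) (hsr : 2 * s ≤ r)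
    (hv : volume {t | t ∈ Ioo s (2 * s) ∧ cnt K y t ≠ N} ≤ ENNReal.ofReal (s / 2)) :
    μH[1] (K ∩ closedBall y s) ≤
      ENNReal.ofReal (N * s + (12000 * A + 3) * s * √(s / r)) := by
  obtain ⟨t, ht, F, hF, hc, hO⟩ := good_cone hA h hr hB hD hs hsr hv
  have h1 := hO y (mem_closedBall_self (by linarith [ht.1]))
  have h2 : ∑ p ∈ F, dist p y = N * t := by
    rw [Finset.sum_congr rfl (g := fun _ => t) fun p hp => (hF.subset (Finset.mem_coe.2 hp)).2,
      Finset.sum_const, hc, nsmul_eq_mul]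
  rw [h2] at h1
  exact len_down h.closed hs.le ht.1.le (by positivity)
    (fun v hv => hN v ⟨hs.trans hv.1, hv.2.trans (ht.2.trans_le hsr)⟩) h1

end

end Vale.Agent.P128.J
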