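import Vale.Agent.P128.J.Meas0

/-! P128 J/Meas (TASK, owner helper27, notes/P128J.md). Helper names end with `_Meas`.
Consequences of `eilenberg_sphere`. `cnt` takes values in `ℕ∞`, so `N ≤ cnt`, `cnt ≠ N` give `N + 1 ≤ cnt`. `bad_le`: `N s + vol(bad) ≤ ∫ cnt` (`lintegral_add_left`, indicator of the measurable bad set), cancel with `ENNReal.add_le_add_iff_left`.
`len_down`, `len_split`: additivity on disjoint measurable sets (`measure_union`, `measure_union_le` is the wrong direction), `cnt_low` for the shells `Ioo 0 t₁`, `Ioo t₂ s` and for `K₁` on `Ioo t₁ t₂`.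
`pick`: otherwise `Ioo a (a + 2E)` is inside the bad set. `diam_le_len`: `cont_len`. -/

namespace Vale.Agent.P128.J

open MeasureTheory Set Metric Filter Topology
open scoped ENNReal ComplexConjugate

noncomputable section

variable {Ω K P M : Set ℂ} {ε r s t η ρ B : ℝ} {wk : Prop} {u : ℂ → ℝ} {x y e : ℂ}

theorem len_split (hK : IsClosed K) {K₁ R : Set ℂ} (hK₁ : IsClosed K₁) (h1 : K₁ ⊆ K)
    (hR : MeasurableSet R) {t₁ t₂ E : ℝ} (hRK : R ⊆ K ∩ {z | dist z y ∈ Icc t₁ t₂})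
    (hd : Disjoint R K₁) (h0 : 0 ≤ t₁) (h12 : t₁ ≤ t₂) (h2 : t₂ ≤ s) (hE : 0 ≤ E) {N : ℕ}
    (hN : ∀ t ∈ Ioo 0 s, ((N + 1 : ℕ) : ℝ≥0∞) ≤ cnt K y t)
    (hN₁ : ∀ t ∈ Ioo t₁ t₂, (N : ℝ≥0∞) ≤ cnt K₁ y t)
    (hl : μH[1] (K ∩ closedBall y s) ≤ ENNReal.ofReal ((N + 1 : ℕ) * s + E)) :
    μH[1] R ≤ ENNReal.ofReal (t₂ - t₁ + E) := by
  have hm : ∀ a b : ℝ, MeasurableSet {z : ℂ | dist z y ∈ Ioo a b} := fun a b =>
    (isOpen_Ioo.preimage (continuous_id.dist continuous_const)).measurableSet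
  have a1 := cnt_low (y := y) hK h0 fun t ht => hN t ⟨ht.1, ht.2.trans_le (h12.trans h2)⟩
  have a2 := cnt_low hK₁ h12 hN₁
  have a3 := cnt_low (y := y) hK h2 fun t ht => hN t ⟨(h0.trans h12).trans_lt ht.1, ht.2⟩
  have d1 : Disjoint R (K ∩ {z | dist z y ∈ Ioo 0 t₁}) :=
    disjoint_left.2 fun z hz hz' => (hRK hz).2.1.not_gt hz'.2.2
  have d2 : Disjoint (R ∪ K ∩ {z | dist z y ∈ Ioo 0 t₁}) (K₁ ∩ {z | dist z y ∈ Ioo t₁ t₂}) :=
    disjoint_left.2 fun z hz hz' => hz.elim (fun h => disjoint_left.1 hd h hz'.1)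
      fun h => lt_asymm h.2.2 hz'.2.1
  have d3 : Disjoint (R ∪ K ∩ {z | dist z y ∈ Ioo 0 t₁} ∪ K₁ ∩ {z | dist z y ∈ Ioo t₁ t₂})
      (K ∩ {z | dist z y ∈ Ioo t₂ s}) :=
    disjoint_left.2 fun z hz hz' => hz.elim (fun h => h.elim
      (fun h => (hRK h).2.2.not_gt hz'.2.1) fun h => lt_asymm (h.2.2.trans_le h12) hz'.2.1)
      fun h => lt_asymm h.2.2 hz'.2.1
  have hsub : R ∪ K ∩ {z | dist z y ∈ Ioo 0 t₁} ∪ K₁ ∩ {z | dist z y ∈ Ioo t₁ t₂} ∪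
      K ∩ {z | dist z y ∈ Ioo t₂ s} ⊆ K ∩ closedBall y s := by
    rintro z (((h | h) | h) | h)
    · exact ⟨(hRK h).1, (hRK h).2.2.trans h2⟩
    · exact ⟨h.1, h.2.2.le.trans (h12.trans h2)⟩
    · exact ⟨h1 h.1, h.2.2.le.trans h2⟩
    · exact ⟨h.1, h.2.2.le⟩
  have b := (measure_mono (μ := μH[1]) hsub).trans hl
  rw [measure_union d3 (hK.measurableSet.inter (hm _ _)),
    measure_union d2 (hK₁.measurableSet.inter (hm _ _)),
    measure_union d1 (hK.measurableSet.inter (hm _ _))] at b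
  have b2 := (add_le_add (add_le_add (add_le_add le_rfl a1) a2) a3).trans b
  have p1 : 0 ≤ ((N + 1 : ℕ) : ℝ) * (t₁ - 0) := mul_nonneg (Nat.cast_nonneg _) (by linarith)
  have p2 : 0 ≤ (N : ℝ) * (t₂ - t₁) := mul_nonneg (Nat.cast_nonneg _) (by linarith)
  have p3 : 0 ≤ ((N + 1 : ℕ) : ℝ) * (s - t₂) := mul_nonneg (Nat.cast_nonneg _) (by linarith)
  have e : ((N + 1 : ℕ) : ℝ) * s + E = (t₂ - t₁ + E) + (((N + 1 : ℕ) : ℝ) * (t₁ - 0) +
      (N * (t₂ - t₁) + ((N + 1 : ℕ) : ℝ) * (s - t₂))) := by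
    push_cast
    ring
  rw [add_assoc, add_assoc, ← ENNReal.ofReal_add p2 p3, ← ENNReal.ofReal_add p1 (add_nonneg p2 p3),
    e, ENNReal.ofReal_add (by linarith) (add_nonneg p1 (add_nonneg p2 p3))] at b2
  exact (ENNReal.add_le_add_iff_right ENNReal.ofReal_ne_top).1 b2

theorem pick {G : ℝ → Prop} {E a : ℝ} (hE : 0 < E)
    (hG : volume {t | t ∈ Ioo 0 s ∧ ¬ G t} ≤ ENNReal.ofReal E) (ha : 0 ≤ a) (has : a + 2 * E ≤ s) :
    ∃ t ∈ Ioo a (a + 2 * E), G t := by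
  by_contra hn
  push Not at hn
  have h1 : Ioo a (a + 2 * E) ⊆ {t | t ∈ Ioo 0 s ∧ ¬ G t} := fun t ht =>
    ⟨⟨ha.trans_lt ht.1, ht.2.trans_le has⟩, hn t ht⟩
  have h2 := (measure_mono h1).trans hG
  rw [Real.volume_Ioo, ENNReal.ofReal_le_ofReal_iff hE.le] at h2
  linarith

theorem diam_le_len {R : Set ℂ} (hR : IsPreconnected R) {z z' : ℂ} (hz : z ∈ R) (hz' : z' ∈ R)
    {L : ℝ} (hL : 0 ≤ L) (h : μH[1] R ≤ ENNReal.ofReal L) : ‖z - z'‖ ≤ L := by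
  have h1 := ((cont_len hR hz' hz le_rfl).trans (measure_mono inter_subset_left)).trans h
  rwa [ENNReal.ofReal_le_ofReal_iff hL, dist_eq_norm] at h1

end

end Vale.Agent.P128.J
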