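import Vale.Agent.P128.J.Alg
import Vale.Agent.P128.TA1.Main

/-! P128 J/Meas0 (TASK, owner helper27, notes/P128J.md). Helper names end with `_Meas0`.
Consequences of `eilenberg_sphere`. `cnt` takes values in `ℕ∞`, so `N ≤ cnt`, `cnt ≠ N` give `N + 1 ≤ cnt`. `bad_le`: `N s + vol(bad) ≤ ∫ cnt` (`lintegral_add_left`, indicator of the measurable bad set), cancel with `ENNReal.add_le_add_iff_left`.
`len_down`, `len_split`: additivity on disjoint measurable sets (`measure_union`, `measure_union_le` is the wrong direction), `cnt_low` for the shells `Ioo 0 t₁`, `Ioo t₂ s` and for `K₁` on `Ioo t₁ t₂`.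
`pick`: otherwise `Ioo a (a + 2E)` is inside the bad set. `diam_le_len`: `cont_len`. -/

namespace Vale.Agent.P128.J

open MeasureTheory Set Metric Filter Topology
open scoped ENNReal ComplexConjugate

noncomputable section

variable {Ω K P M : Set ℂ} {ε r s t η ρ B : ℝ} {wk : Prop} {u : ℂ → ℝ} {x y e : ℂ}

theorem measurable_cnt (hK : IsClosed K) (y : ℂ) : Measurable (cnt K y) := by
  exact (eilenberg_sphere hK y).1

theorem vol_Meas0 (N : ℕ) (a b : ℝ) :
    (N : ℝ≥0∞) * volume (Ioo a b) = ENNReal.ofReal (N * (b - a)) := by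
  rw [Real.volume_Ioo, ENNReal.ofReal_mul (Nat.cast_nonneg N), ENNReal.ofReal_natCast]

theorem cnt_low (hK : IsClosed K) {N : ℕ} {a b : ℝ} (hab : a ≤ b)
    (h : ∀ t ∈ Ioo a b, (N : ℝ≥0∞) ≤ cnt K y t) :
    ENNReal.ofReal (N * (b - a)) ≤ μH[1] (K ∩ {z | dist z y ∈ Ioo a b}) := by
  refine le_trans ?_ ((eilenberg_sphere hK y).2 _ measurableSet_Ioo)
  rw [← vol_Meas0, ← setLIntegral_const]
  exact setLIntegral_mono' measurableSet_Ioo h

theorem bad_le (hK : IsClosed K) {N : ℕ} {E : ℝ} (hs : 0 ≤ s) (hE : 0 ≤ E)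
    (h : ∀ t ∈ Ioo 0 s, (N : ℝ≥0∞) ≤ cnt K y t)
    (hl : μH[1] (K ∩ closedBall y s) ≤ ENNReal.ofReal (N * s + E)) :
    volume {t | t ∈ Ioo 0 s ∧ cnt K y t ≠ N} ≤ ENNReal.ofReal E := by
  have hm : MeasurableSet {t | cnt K y t ≠ N} :=
    (measurable_cnt hK y (measurableSet_singleton _)).compl
  have h1 : ∫⁻ t in Ioo 0 s, ((N : ℝ≥0∞) + {t | cnt K y t ≠ N}.indicator 1 t) ≤
      ∫⁻ t in Ioo 0 s, cnt K y t := by
    refine setLIntegral_mono' measurableSet_Ioo fun t ht => ?_
    by_cases hb : t ∈ {t | cnt K y t ≠ N}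
    · rw [indicator_of_mem hb, Pi.one_apply]
      have h2 : (N : ℕ∞) < (K ∩ sphere y t).encard := by
        have := lt_of_le_of_ne (h t ht) (Ne.symm hb)
        unfold cnt at this
        exact_mod_cast this
      have h3 := Order.add_one_le_of_lt h2
      unfold cnt
      exact_mod_cast h3
    · rw [indicator_of_notMem hb, add_zero]
      exact h t ht
  rw [lintegral_add_left measurable_const, setLIntegral_const, vol_Meas0,
    lintegral_indicator_one hm, Measure.restrict_apply hm, sub_zero] at h1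
  have h4 := (h1.trans ((eilenberg_sphere hK y).2 _ measurableSet_Ioo)).trans
    ((measure_mono (inter_subset_inter_right _ fun z hz => hz.2.le)).trans hl)
  rw [ENNReal.ofReal_add (by positivity) hE,
    ENNReal.add_le_add_iff_left ENNReal.ofReal_ne_top, inter_comm] at h4
  exact h4

theorem len_down (hK : IsClosed K) {N : ℕ} {E : ℝ} (hs : 0 ≤ s) (hst : s ≤ t) (hE : 0 ≤ E)
    (h : ∀ v ∈ Ioo s t, (N : ℝ≥0∞) ≤ cnt K y v)
    (hl : μH[1] (K ∩ closedBall y t) ≤ ENNReal.ofReal (N * t + E)) :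
    μH[1] (K ∩ closedBall y s) ≤ ENNReal.ofReal (N * s + E) := by
  have h1 := cnt_low hK hst h
  have hm : MeasurableSet (K ∩ {z | dist z y ∈ Ioo s t}) :=
    hK.measurableSet.inter ((by fun_prop : Measurable fun z : ℂ => dist z y) measurableSet_Ioo)
  have h2 : μH[1] (K ∩ closedBall y s) + μH[1] (K ∩ {z | dist z y ∈ Ioo s t}) ≤
      μH[1] (K ∩ closedBall y t) := by
    rw [← measure_union (disjoint_left.2 fun z h1 h2 => h2.2.1.not_ge h1.2) hm]
    exact measure_mono (union_subset (inter_subset_inter_right _ (closedBall_subset_closedBall hst))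
      (inter_subset_inter_right _ fun z hz => hz.2.le))
  have h3 := ((add_le_add_right h1 _).trans h2).trans hl
  have h4 : 0 ≤ t - s := sub_nonneg.2 hst
  rw [show N * t + E = (N * s + E) + N * (t - s) by ring,
    ENNReal.ofReal_add (by positivity) (by positivity),
    ENNReal.add_le_add_iff_right ENNReal.ofReal_ne_top] at h3
  exact h3

end

end Vale.Agent.P128.J
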