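import Vale.Agent.P128.J.Fl

/-! P128 J/Ori (TASK, owner helper27, notes/P128J.md). Helper names end with `_Ori`.
Consistent orientation of the approximating lines. Choose `E k y` with `Fl K y (R / 2^k) η (E k y)`. Put `sg a b = if 0 ≤ (a * conj b).re then a else -a`,
`e 0 y = sg (E 0 y) (E 0 x)`, `e (k+1) y = sg (E (k+1) y) (e k y)` (`Nat.rec`). `Fl.neg`, `Fl.dir`, `unit_close` give the first part. Second part by induction on `k`:
`Fl.dir` bounds the imaginary part of `e k y' * conj (e k y)`; the real part is positive because the two vectors are within `48 η` (within `32 η` for `k = 0`) of each other. -/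

namespace Vale.Agent.P128.J

open MeasureTheory Set Metric Filter Topology
open scoped ENNReal ComplexConjugate

noncomputable section

variable {Ω K P M : Set ℂ} {ε r s t η ρ B : ℝ} {wk : Prop} {u : ℂ → ℝ} {x y e : ℂ}

theorem sg_Ori (a b : ℂ) : ∃ c : ℂ, (c = a ∨ c = -a) ∧ 0 ≤ (c * conj b).re := by
  rcases le_total 0 (a * conj b).re with h | h
  · exact ⟨a, Or.inl rfl, h⟩
  · refine ⟨-a, Or.inr rfl, ?_⟩
    rw [neg_mul, Complex.neg_re]
    linarith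

theorem re_Ori {a b : ℂ} (ha : ‖a‖ = 1) (h : ‖a - b‖ ≤ 1) : 0 ≤ (b * conj a).re := by
  have e : (b * conj a).re = 1 - ((a - b) * conj a).re := by
    have : (a * conj a).re = 1 := by
      rw [Complex.mul_conj, Complex.normSq_eq_norm_sq, ha]
      simp
    rw [sub_mul, Complex.sub_re, this]
    ring
  have h1 := Complex.re_le_norm ((a - b) * conj a)
  rw [norm_mul, Complex.norm_conj, ha, mul_one] at h1
  linarith

theorem orient {R : ℝ} (hx : x ∈ K) (hR : 0 < R) (h : RFl K x (5 / 4 * R) η) (hη : η ≤ 1 / 1000) :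
    ∃ e : ℕ → ℂ → ℂ,
      (∀ k, ∀ y ∈ K, ‖y - x‖ ≤ R / 4 →
        Fl K y (R / 2 ^ k) η (e k y) ∧ ‖e k y - e (k + 1) y‖ ≤ 16 * η) ∧
      ∀ k, ∀ y ∈ K, ∀ y' ∈ K, ‖y - x‖ ≤ R / 4 → ‖y' - x‖ ≤ R / 4 → ‖y' - y‖ ≤ R / 2 ^ k / 2 →
        ‖e k y - e k y'‖ ≤ 16 * η := by
  have hp : ∀ k : ℕ, 0 < R / 2 ^ k := fun k => by positivity
  have hh : ∀ k : ℕ, R / 2 ^ (k + 1) = R / 2 ^ k / 2 := fun k => by rw [pow_succ, div_mul_eq_div_div]
  have hE : ∀ (k : ℕ) (y : ℂ), ∃ E, y ∈ K → ‖y - x‖ ≤ R / 4 → Fl K y (R / 2 ^ k) η E := by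
    intro k y
    by_cases hy : y ∈ K ∧ ‖y - x‖ ≤ R / 4
    · have : R / 2 ^ k ≤ R := div_le_self hR.le (one_le_pow₀ one_le_two)
      obtain ⟨E, hE⟩ := h y hy.1 _ (hp k) (by linarith [hy.2])
      exact ⟨E, fun _ _ => hE⟩
    · exact ⟨0, fun h1 h2 => absurd ⟨h1, h2⟩ hy⟩
  choose E hE using hE
  choose sg hs1 hs2 using sg_Ori
  have hs : ∀ {y s a} (b), Fl K y s η a → Fl K y s η (sg a b) := fun b h => by
    rcases hs1 _ b with e | e <;> rw [e]
    exacts [h, h.neg]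
  let e : ℕ → ℂ → ℂ := fun k => Nat.rec (fun y => sg (E 0 y) (E 0 x))
    (fun k f y => sg (E (k + 1) y) (f y)) k
  have hF : ∀ k, ∀ y ∈ K, ‖y - x‖ ≤ R / 4 → Fl K y (R / 2 ^ k) η (e k y) := fun k y h1 h2 => by
    cases k with
    | zero => exact hs _ (hE 0 y h1 h2)
    | succ k => exact hs _ (hE (k + 1) y h1 h2)
  have hc : ∀ {y y' s s' a b}, Fl K y s η a → Fl K y' s' η b → 0 < s → s / 2 ≤ s' → s' ≤ s →
      ‖y' - y‖ ≤ s / 2 → 0 ≤ (b * conj a).re → ‖a - b‖ ≤ 16 * η := fun h h' h0 h1 h2 h3 h4 => by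
    linarith [unit_close h.unit h'.unit (h.dir h' h0 h1 h2 h3 (by linarith)) h4]
  have h1 : ∀ k, ∀ y ∈ K, ‖y - x‖ ≤ R / 4 → ‖e k y - e (k + 1) y‖ ≤ 16 * η := fun k y h1 h2 =>
    hc (hF k y h1 h2) (hF (k + 1) y h1 h2) (hp k) (hh k).ge (by linarith [hh k, hp k])
      (by rw [sub_self, norm_zero]; linarith [hp k]) (hs2 _ _)
  refine ⟨e, fun k y a b => ⟨hF k y a b, h1 k y a b⟩, fun k => ?_⟩
  have key : ∀ k, ∀ y ∈ K, ∀ y' ∈ K, ‖y - x‖ ≤ R / 4 → ‖y' - x‖ ≤ R / 4 →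
      ‖y' - y‖ ≤ R / 2 ^ k / 2 → ‖e k y - e k y'‖ ≤ 48 * η → ‖e k y - e k y'‖ ≤ 16 * η :=
    fun k y a y' a' b b' c d => hc (hF k y a b) (hF k y' a' b') (hp k) (by linarith [hp k]) le_rfl c
      (re_Ori (hF k y a b).unit (by linarith))
  induction k with
  | zero =>
    have h0 : ∀ y ∈ K, ‖y - x‖ ≤ R / 4 → ‖E 0 x - e 0 y‖ ≤ 16 * η := fun y a b =>
      hc (hE 0 x hx (by rw [sub_self, norm_zero]; linarith)) (hF 0 y a b) (hp 0)
        (by linarith [hp 0]) le_rfl (by rw [pow_zero, div_one]; linarith) (hs2 _ _)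
    intro y a y' a' b b' c
    refine key 0 y a y' a' b b' c ?_
    have := norm_sub_le_norm_sub_add_norm_sub (e 0 y) (E 0 x) (e 0 y')
    rw [norm_sub_rev (e 0 y) (E 0 x)] at this
    linarith [h0 y a b, h0 y' a' b', norm_nonneg (E 0 x - e 0 y)]
  | succ k ih =>
    intro y a y' a' b b' c
    refine key (k + 1) y a y' a' b b' c ?_
    have t1 := norm_sub_le_norm_sub_add_norm_sub (e (k + 1) y) (e k y) (e (k + 1) y')
    have t2 := norm_sub_le_norm_sub_add_norm_sub (e k y) (e k y') (e (k + 1) y')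
    rw [norm_sub_rev (e (k + 1) y) (e k y)] at t1
    linarith [h1 k y a b, h1 k y' a' b', ih y a y' a' b b' (by linarith [hh k, hp k])]

end

end Vale.Agent.P128.J
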