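import Vale.Agent.P128.J.Shell0

/-! P128 J/Shell (TASK, owner helper27, notes/P128J.md). Helper names end with `_Shell`.
`shell_conn`: `isPreconnected_closed_iff`; by contradiction let `R ⊆ U ∪ V` closed, `p ∈ R ∩ U`, `q ∈ R ∩ V`, `R ∩ U ∩ V = ∅`. `I = {‖w - y‖ ≤ t₁}`, `O = {t₂ ≤ ‖w - y‖}`. `U' = (R ∩ U) ∪ {w ∈ I | c₁} ∪ {w ∈ O | c₂}`,
`V' = (R ∩ V) ∪ {w ∈ I | ¬ c₁} ∪ {w ∈ O | ¬ c₂}`, `c_i` = some point of `R ∩ U` has norm `t_i`. `‖q - p‖ ≤ t₂ - t₁ + 3 η s` (`norm_le_ab_ht`, `ab ≥ t₁ - η s` on `R`), so `0 < ab` on `closedBall p (3 ‖q - p‖)` (`lip_ab`); `bisect`, `Uq`.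
`ang2`: `e` from `h.side` at `s`; `Lab.arm`; `bad_le` (`Lab.two`), `pick` gives `t₁ ∈ (t - 2E, t)`, `t₂ ∈ (t', t' + 2E)` with `cnt = 2` for the smaller radius `t` and the larger `t'`; `Lab.uq`, `shell_conn`;
`len_split` with `N = 1`, `K₁ = K ∩ {ab ≤ 0}` (`Lab.meet` for `h.symm`, `Side.neg`); `diam_le_len` gives `‖z - z'‖ ≤ t' - t + 5E`; `norm_sq_polar`. -/

namespace Vale.Agent.P128.J

open MeasureTheory Set Metric Filter Topology
open scoped ENNReal ComplexConjugate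

noncomputable section

variable {Ω K P M : Set ℂ} {ε r s t η ρ B : ℝ} {wk : Prop} {u : ℂ → ℝ} {x y e : ℂ}

theorem ang2_Shell (hK : IsClosed K) (h : Lab K x r η P M) (hη : η ≤ 1 / 1000) (hy : y ∈ K) (hs : 0 < s)
    (hr : ‖y - x‖ + 2 * s ≤ r) {E : ℝ} (hE : 0 < E) (hEs : E ≤ s / 40)
    (hl : μH[1] (K ∩ closedBall y s) ≤ ENNReal.ofReal (2 * s + E)) {z z' : ℂ} (hz : z ∈ K)
    (hz' : z' ∈ K) (h1 : ‖z - y‖ ∈ Icc (4 / 5 * s) (9 / 10 * s))
    (h2 : ‖z' - y‖ ∈ Icc (4 / 5 * s) (9 / 10 * s)) (p1 : rot y z ∈ P) (p2 : rot y z' ∈ P)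
    (hle : ‖z - y‖ ≤ ‖z' - y‖) :
    ‖dirn y z - dirn y z'‖ ^ 2 ≤ 4 * E / s := by
  have hη' : η ≤ 1 / 100 := by linarith
  have hr' : ‖y - x‖ + s ≤ r := by linarith
  obtain ⟨e, hS⟩ := h.side y hy s hs hr'
  have a1 := (h.arm hη' hS hs hz (by linarith [h1.1]) (by linarith [h1.2])).1.1 p1
  have a2 := (h.arm hη' hS hs hz' (by linarith [h2.1]) (by linarith [h2.2])).1.1 p2
  have two : ∀ t ∈ Ioo 0 s, ((2 : ℕ) : ℝ≥0∞) ≤ cnt K y t := fun t ht =>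
    h.two hη' hy ht.1 (by linarith [ht.2])
  have hb := bad_le hK hs.le hE.le two (by simpa using hl)
  obtain ⟨t₁, ⟨b1, b2⟩, c1⟩ := pick (G := fun t => cnt K y t = (2 : ℕ)) (a := ‖z - y‖ - 2 * E) hE hb
    (by linarith [h1.1]) (by linarith [h1.2])
  obtain ⟨t₂, ⟨b3, b4⟩, c2⟩ := pick (G := fun t => cnt K y t = (2 : ℕ)) (a := ‖z' - y‖) hE hb
    (norm_nonneg _) (by linarith [h2.2])
  have d1 : 7 / 10 * s ≤ t₁ := by linarith [h1.1]
  have d2 : t₂ ≤ s := by linarith [h2.2]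
  have d3 : t₁ < t₂ := by linarith
  have u1 := h.uq hη' hS hs hr' (by linarith) (by linarith) c1
  have u2 := h.uq hη' hS hs hr' (by linarith) d2 c2
  have hc := shell_conn hK h.rfl hη hS.fl hs hr d1 d3 d2 (by linarith [h1.1, h2.2]) u1 u2
  have cn : Continuous fun p : ℂ => ‖p - y‖ := (continuous_id.sub continuous_const).norm
  have hcl : IsClosed (K ∩ {p | t₁ ≤ ‖p - y‖ ∧ ‖p - y‖ ≤ t₂ ∧ 0 ≤ ab y e p}) :=
    hK.inter ((isClosed_le continuous_const cn).inter ((isClosed_le cn continuous_const).inter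
      (isClosed_le continuous_const (continuous_ab y e))))
  have hlen := len_split (y := y) (s := s) (N := 1) (K₁ := K ∩ {p | ab y e p ≤ 0}) hK
    (hK.inter (isClosed_le (continuous_ab y e) continuous_const)) inter_subset_left hcl.measurableSet
    (t₁ := t₁) (t₂ := t₂) (E := E)
    (fun p hp => ⟨hp.1, by
      show dist p y ∈ Icc t₁ t₂
      rw [dist_eq_norm]
      exact ⟨hp.2.1, hp.2.2.1⟩⟩)
    (Set.disjoint_left.2 fun p hp hq =>
      (h.arm hη' hS hs hp.1 (by linarith [hp.2.1]) (by linarith [hp.2.2.1])).2.2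
        (le_antisymm hq.2 hp.2.2.2))
    (by linarith) d3.le d2 hE.le two
    (fun t ht => by
      obtain ⟨a, ha, hn, hab⟩ := h.symm.meet hη' hS.neg hs hr' (t := t) (by linarith [ht.1])
        (by linarith [ht.2])
      rw [ab_neg] at hab
      have : (K ∩ {p | ab y e p ≤ 0} ∩ sphere y t).Nonempty :=
        ⟨a, ⟨ha, show ab y e a ≤ 0 by linarith⟩, mem_sphere_iff_norm.2 hn⟩
      have h1 := Set.one_le_encard_iff_nonempty.2 this
      unfold cnt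
      exact_mod_cast h1)
    (by simpa using hl)
  have hd := diam_le_len hc (z := z) (z' := z') ⟨hz, by linarith, by linarith, a1.le⟩
    ⟨hz', by linarith, by linarith, a2.le⟩ (by linarith) hlen
  have n1 : z ≠ y := fun e => by
    have := h1.1
    rw [e, sub_self, norm_zero] at this
    linarith
  have n2 : z' ≠ y := fun e => by
    have := h2.1
    rw [e, sub_self, norm_zero] at this
    linarith
  have hp := norm_sq_polar n1 n2
  have hq : ‖z - z'‖ ^ 2 ≤ (‖z' - y‖ - ‖z - y‖ + 5 * E) ^ 2 :=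
    pow_le_pow_left₀ (norm_nonneg _) (by linarith) 2
  have D0 : 0 ≤ ‖dirn y z - dirn y z'‖ ^ 2 := sq_nonneg _
  have m1 : 4 / 5 * s * (4 / 5 * s) ≤ ‖z - y‖ * ‖z' - y‖ :=
    mul_le_mul h1.1 h2.1 (by linarith) (norm_nonneg _)
  have m2 := mul_le_mul_of_nonneg_right m1 D0
  have m3 : E * (‖z' - y‖ - ‖z - y‖) ≤ E * (s / 10) :=
    mul_le_mul_of_nonneg_left (by linarith [h1.1, h2.2]) hE.le
  have m4 : E * E ≤ E * (s / 40) := mul_le_mul_of_nonneg_left hEs hE.le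
  have m5 : 0 < E * s := mul_pos hE hs
  rw [le_div_iff₀ hs]
  refine le_of_mul_le_mul_right ?_ hs
  nlinarith

theorem ang2 (hK : IsClosed K) (h : Lab K x r η P M) (hη : η ≤ 1 / 1000) (hy : y ∈ K) (hs : 0 < s)
    (hr : ‖y - x‖ + 2 * s ≤ r) {E : ℝ} (hE : 0 < E) (hEs : E ≤ s / 40)
    (hl : μH[1] (K ∩ closedBall y s) ≤ ENNReal.ofReal (2 * s + E)) {z z' : ℂ} (hz : z ∈ K)
    (hz' : z' ∈ K) (h1 : ‖z - y‖ ∈ Icc (4 / 5 * s) (9 / 10 * s))
    (h2 : ‖z' - y‖ ∈ Icc (4 / 5 * s) (9 / 10 * s)) (p1 : rot y z ∈ P) (p2 : rot y z' ∈ P) :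
    ‖dirn y z - dirn y z'‖ ^ 2 ≤ 4 * E / s := by
  rcases le_total ‖z - y‖ ‖z' - y‖ with q | q
  · exact ang2_Shell hK h hη hy hs hr hE hEs hl hz hz' h1 h2 p1 p2 q
  · rw [norm_sub_rev]
    exact ang2_Shell hK h hη hy hs hr hE hEs hl hz' hz h2 h1 p2 p1 q

end

end Vale.Agent.P128.J
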