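import Vale.Agent.P128.J.Circ
import Vale.Agent.P128.J.Meas

/-! P128 J/Shell0 (TASK, owner helper27, notes/P128J.md). Helper names end with `_Shell0`.
`shell_conn`: `isPreconnected_closed_iff`; by contradiction let `R ⊆ U ∪ V` closed, `p ∈ R ∩ U`, `q ∈ R ∩ V`, `R ∩ U ∩ V = ∅`. `I = {‖w - y‖ ≤ t₁}`, `O = {t₂ ≤ ‖w - y‖}`. `U' = (R ∩ U) ∪ {w ∈ I | c₁} ∪ {w ∈ O | c₂}`,
`V' = (R ∩ V) ∪ {w ∈ I | ¬ c₁} ∪ {w ∈ O | ¬ c₂}`, `c_i` = some point of `R ∩ U` has norm `t_i`. `‖q - p‖ ≤ t₂ - t₁ + 3 η s` (`norm_le_ab_ht`, `ab ≥ t₁ - η s` on `R`), so `0 < ab` on `closedBall p (3 ‖q - p‖)` (`lip_ab`); `bisect`, `Uq`.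
`ang2`: `e` from `h.side` at `s`; `Lab.arm`; `bad_le` (`Lab.two`), `pick` gives `t₁ ∈ (t - 2E, t)`, `t₂ ∈ (t', t' + 2E)` with `cnt = 2` for the smaller radius `t` and the larger `t'`; `Lab.uq`, `shell_conn`;
`len_split` with `N = 1`, `K₁ = K ∩ {ab ≤ 0}` (`Lab.meet` for `h.symm`, `Side.neg`); `diam_le_len` gives `‖z - z'‖ ≤ t' - t + 5E`; `norm_sq_polar`. -/

namespace Vale.Agent.P128.J

open MeasureTheory Set Metric Filter Topology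
open scoped ENNReal ComplexConjugate

noncomputable section

variable {Ω K P M : Set ℂ} {ε r s t η ρ B : ℝ} {wk : Prop} {u : ℂ → ℝ} {x y e : ℂ}

theorem shell_conn (hK : IsClosed K) (h : RFl K x r η) (hη : η ≤ 1 / 1000) (hf : Fl K y s η e)
    (hs : 0 < s) (hr : ‖y - x‖ + 2 * s ≤ r) {t₁ t₂ : ℝ} (h1 : 7 / 10 * s ≤ t₁) (h12 : t₁ < t₂)
    (h2 : t₂ ≤ s) (h3 : t₂ - t₁ ≤ s / 5) (u1 : Uq K y e t₁) (u2 : Uq K y e t₂) :
    IsPreconnected (K ∩ {p | t₁ ≤ ‖p - y‖ ∧ ‖p - y‖ ≤ t₂ ∧ 0 ≤ ab y e p}) := by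
  obtain ⟨R, hR⟩ : ∃ R, R = K ∩ {p | t₁ ≤ ‖p - y‖ ∧ ‖p - y‖ ≤ t₂ ∧ 0 ≤ ab y e p} := ⟨_, rfl⟩
  have mR : ∀ w, w ∈ R ↔ w ∈ K ∧ t₁ ≤ ‖w - y‖ ∧ ‖w - y‖ ≤ t₂ ∧ 0 ≤ ab y e w := fun w => by
    rw [hR]
    rfl
  have cn : Continuous fun w : ℂ => ‖w - y‖ := (continuous_id.sub continuous_const).norm
  have cI : IsClosed {w : ℂ | ‖w - y‖ ≤ t₁} := isClosed_le cn continuous_const
  have cO : IsClosed {w : ℂ | t₂ ≤ ‖w - y‖} := isClosed_le continuous_const cn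
  have cR : IsClosed R := hR ▸ hK.inter ((isClosed_le continuous_const cn).inter
    ((isClosed_le cn continuous_const).inter (isClosed_le continuous_const (continuous_ab y e))))
  have hηs : η * s ≤ 1 / 1000 * s := mul_le_mul_of_nonneg_right hη hs.le
  have est : ∀ w ∈ R, |ht y e w| ≤ η * s ∧ t₁ - η * s ≤ ab y e w ∧ ab y e w ≤ t₂ := fun w hw => by
    obtain ⟨a1, a2, a3, a4⟩ := (mR w).1 hw
    have b1 := hf.up w a1 (a3.trans h2)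
    have b2 := norm_le_ab_ht hf.unit y w
    have b3 := abs_ab_le hf.unit y w
    rw [abs_of_nonneg a4] at b2 b3
    exact ⟨b1, by linarith, b3.trans a3⟩
  rw [← hR, isPreconnected_closed_iff]
  rintro U V hU hV hc ⟨p, pR, pU⟩ ⟨q, qR, qV⟩
  obtain ⟨p1, p2, p3⟩ := est p pR
  obtain ⟨q1, q2, q3⟩ := est q qR
  have hd : ‖q - p‖ ≤ 203 / 1000 * s := by
    have b1 := norm_le_ab_ht hf.unit p q
    rw [← ab_sub y, ← ht_sub y] at b1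
    have b2 : |ab y e q - ab y e p| ≤ t₂ - t₁ + η * s := abs_le.2 ⟨by linarith, by linarith⟩
    linarith [abs_sub (ht y e q) (ht y e p)]
  have hx : ‖p - x‖ + 3 * ‖q - p‖ ≤ r := by
    linarith [norm_sub_le_norm_sub_add_norm_sub p y x, ((mR p).1 pR).2.2.1]
  obtain ⟨c₁, hc₁⟩ : ∃ c : Prop, c ↔ ∃ w ∈ R ∩ U, ‖w - y‖ = t₁ := ⟨_, Iff.rfl⟩
  obtain ⟨c₂, hc₂⟩ : ∃ c : Prop, c ↔ ∃ w ∈ R ∩ U, ‖w - y‖ = t₂ := ⟨_, Iff.rfl⟩
  obtain ⟨w, ⟨-, wU⟩, wV⟩ := bisect hK h (by linarith) ((mR p).1 pR).1 ((mR q).1 qR).1 hx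
    (((cR.inter hU).union (cI.inter (isClosed_const (p := c₁)))).union
      (cO.inter (isClosed_const (p := c₂))))
    (((cR.inter hV).union (cI.inter (isClosed_const (p := ¬ c₁)))).union
      (cO.inter (isClosed_const (p := ¬ c₂))))
    (fun w hw => by
      have b1 := abs_le.1 (lip_ab hf.unit y w p)
      have b2 := mem_closedBall_iff_norm.1 hw.2
      rcases le_total ‖w - y‖ t₁ with a1 | a1
      · exact (em c₁).imp (fun c => Or.inl (Or.inr ⟨a1, c⟩)) fun c => Or.inl (Or.inr ⟨a1, c⟩)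
      rcases le_total t₂ ‖w - y‖ with a2 | a2
      · exact (em c₂).imp (fun c => Or.inr ⟨a2, c⟩) fun c => Or.inr ⟨a2, c⟩
      have a3 := (mR w).2 ⟨hw.1, a1, a2, by linarith [b1.1]⟩
      exact (hc a3).imp (fun c => Or.inl (Or.inl ⟨a3, c⟩)) fun c => Or.inl (Or.inl ⟨a3, c⟩))
    (Or.inl (Or.inl ⟨pR, pU⟩)) (Or.inl (Or.inl ⟨qR, qV⟩))
  have uq : ∀ {t : ℝ}, Uq K y e t → w ∈ R ∩ V → ‖w - y‖ = t → (∃ w ∈ R ∩ U, ‖w - y‖ = t) →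
      (R ∩ (U ∩ V)).Nonempty := by
    rintro t ut hw e1 ⟨w', hw', e2⟩
    have a1 := (mR w).1 hw.1
    have a2 := (mR w').1 hw'.1
    have := ut w a1.1 w' a2.1 e1 e2 a1.2.2.2 a2.2.2.2
    exact ⟨w, hw.1, this ▸ hw'.2, hw.2⟩
  rcases wU with (a | ⟨a, a'⟩) | ⟨a, a'⟩ <;> rcases wV with (b | ⟨b, b'⟩) | ⟨b, b'⟩
  · exact ⟨w, a.1, a.2, b.2⟩
  · exact absurd (hc₁.2 ⟨w, a, le_antisymm b ((mR w).1 a.1).2.1⟩) b'
  · exact absurd (hc₂.2 ⟨w, a, le_antisymm ((mR w).1 a.1).2.2.1 b⟩) b'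
  · exact uq u1 b (le_antisymm a ((mR w).1 b.1).2.1) (hc₁.1 a')
  · exact absurd a' b'
  · exact absurd (le_trans b a) h12.not_ge
  · exact uq u2 b (le_antisymm ((mR w).1 b.1).2.2.1 a) (hc₂.1 a')
  · exact absurd (le_trans a b) h12.not_ge
  · exact absurd a' b'

end

end Vale.Agent.P128.J
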