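import Vale.Agent.P128.J.Shell
import Vale.Agent.P128.J.Arm

/-! P128 J/Tan0 (TASK, owner helper27, notes/P128J.md). Helper names end with `_Tan0`.
`arm_P`: `arm_dir` for `A = {z ∈ K | rot y z ∈ P}` with `B = 3 √A`: existence from `Lab.meet`, `Lab.arm` (side at scale `t`); the bound from `ang2` with `s = 10/9 ‖z - y‖`, `E = min (s/40) (A s √(s/R))`, `q_sq`, `√(10/9) ≤ 9/4`.
`opp`: `‖e₁ + e₂‖ ≤ δ` for every `δ`: at a small scale `s` with `Fl K y s η' e'` take `w₊, w₋ ∈ K` near `y ± (3s/4) e'` (`dirn_near`); with `e` from `h.side` at `s` the numbers `ab y e w₊`, `ab y e w₋` have opposite signs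
(their sum is at most `2 η' s`, each has size at least `s/2 - η s`), so one is in the arm of `P`, the other in the arm of `M` (`Lab.arm`); `tendsto_q`, `q_mono`.
`tan_at`: `τ = e₁`, `e₂ = -e₁`; every `w ∈ K`, `w ≠ y` is in one of the arms; `ht_eq_dirn`, `norm_sub_dirn`, `q_mono`. -/

namespace Vale.Agent.P128.J

open MeasureTheory Set Metric Filter Topology
open scoped ENNReal ComplexConjugate

noncomputable section

variable {Ω K P M : Set ℂ} {ε r s t η ρ B : ℝ} {wk : Prop} {u : ℂ → ℝ} {x y e : ℂ}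

theorem root_Tan0 {A R d : ℝ} (hA : 0 < A) (hR : 0 < R) (ht : 0 < t)
    (h : d ^ 2 ≤ 4 * (A * √(10 / 9 * t / R))) : d ≤ 3 * √A * (t / R) ^ (1 / 4 : ℝ) := by
  have h0 : 0 ≤ t / R := by positivity
  have h1 : √(10 / 9 * t / R) ≤ 9 / 4 * √(t / R) := by
    rw [Real.sqrt_le_left (by positivity), mul_pow, Real.sq_sqrt h0, mul_div_assoc]
    exact mul_le_mul_of_nonneg_right (by norm_num) h0
  refine le_of_sq_le_sq ?_ (by positivity)
  rw [mul_pow, mul_pow, q_sq h0, Real.sq_sqrt hA.le]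
  have h2 := mul_le_mul_of_nonneg_left h1 hA.le
  linarith

theorem arm_P {A R : ℝ} (hK : IsClosed K) (h : Lab K x r η P M) (hη : η ≤ 1 / 1000) (hy : y ∈ K)
    (hρ : 0 < ρ) (hr : ‖y - x‖ + 3 * ρ ≤ r) (hA : 0 < A) (hR : 0 < R)
    (hl : ∀ s ∈ Ioc 0 (2 * ρ), μH[1] (K ∩ closedBall y s) ≤ ENNReal.ofReal (2 * s + s / 40) ∧
      μH[1] (K ∩ closedBall y s) ≤ ENNReal.ofReal (2 * s + A * s * √(s / R))) :
    (∀ t ∈ Ioc 0 ρ, ∃ z ∈ K, rot y z ∈ P ∧ ‖z - y‖ = t) ∧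
    ∃ e, ‖e‖ = 1 ∧ ∀ z ∈ K, rot y z ∈ P → ‖z - y‖ ∈ Ioc 0 ρ →
      ‖dirn y z - e‖ ≤ 400 * √A * (‖z - y‖ / R) ^ (1 / 4 : ℝ) := by
  have hex : ∀ t ∈ Ioc 0 ρ, ∃ z ∈ K, rot y z ∈ P ∧ ‖z - y‖ = t := by
    intro t ht
    have h1 : ‖y - x‖ + t ≤ r := by linarith [ht.2]
    obtain ⟨e, hS⟩ := h.side y hy t ht.1 h1
    obtain ⟨a, ha, h2, h3⟩ := h.meet (t := t) (by linarith) hS ht.1 h1 (by linarith [ht.1]) le_rfl
    exact ⟨a, ha, (h.arm (by linarith) hS ht.1 ha (by linarith [ht.1]) h2.le).1.2 h3, h2⟩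
  refine ⟨hex, ?_⟩
  have hB : 0 ≤ 3 * √A := by positivity
  obtain ⟨e, he, h1⟩ := arm_dir (y := y) (A := {z | z ∈ K ∧ rot y z ∈ P}) hρ hR hB
    (fun t ht => by
      obtain ⟨z, hz, h1, h2⟩ := hex t ht
      exact ⟨z, ⟨hz, h1⟩, h2⟩)
    (fun z hz z' hz' ht ht' => by
      obtain ⟨t, e⟩ : ∃ t, t = ‖z - y‖ := ⟨_, rfl⟩
      rw [← e] at ht ht' ⊢
      have ht0 := ht.1
      have hs : 0 < 10 / 9 * t := by positivity
      obtain ⟨l1, l2⟩ := hl (10 / 9 * t) ⟨hs, by linarith [ht.2]⟩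
      have hE : 0 < min (10 / 9 * t / 40) (A * (10 / 9 * t) * √(10 / 9 * t / R)) :=
        lt_min (by positivity) (by positivity)
      have k := ang2 hK h hη hy hs (by linarith [ht.2]) hE (min_le_left _ _)
        (by
          rcases min_choice (10 / 9 * t / 40) (A * (10 / 9 * t) * √(10 / 9 * t / R)) with c | c
          · rwa [c]
          · rwa [c])
        hz.1 hz'.1 ⟨by linarith, by linarith⟩ ⟨by linarith [ht'.1], by linarith [ht'.2]⟩
        hz.2 hz'.2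
      refine root_Tan0 hA hR ht0 (k.trans ?_)
      rw [div_le_iff₀ hs]
      have := min_le_right (10 / 9 * t / 40) (A * (10 / 9 * t) * √(10 / 9 * t / R))
      linarith)
  refine ⟨e, he, fun z hz hp ht => (h1 z ⟨hz, hp⟩ ht).trans ?_⟩
  refine mul_le_mul_of_nonneg_right ?_ (by positivity)
  linarith

end

end Vale.Agent.P128.J
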