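import Vale.Agent.P128.J.Tan0

/-! P128 J/TanA (TASK, owner helper27, notes/P128J.md). Helper names end with `_TanA`.
`arm_P`: `arm_dir` for `A = {z ∈ K | rot y z ∈ P}` with `B = 3 √A`: existence from `Lab.meet`, `Lab.arm` (side at scale `t`); the bound from `ang2` with `s = 10/9 ‖z - y‖`, `E = min (s/40) (A s √(s/R))`, `q_sq`, `√(10/9) ≤ 9/4`.
`opp`: `‖e₁ + e₂‖ ≤ δ` for every `δ`: at a small scale `s` with `Fl K y s η' e'` take `w₊, w₋ ∈ K` near `y ± (3s/4) e'` (`dirn_near`); with `e` from `h.side` at `s` the numbers `ab y e w₊`, `ab y e w₋` have opposite signs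
(their sum is at most `2 η' s`, each has size at least `s/2 - η s`), so one is in the arm of `P`, the other in the arm of `M` (`Lab.arm`); `tendsto_q`, `q_mono`.
`tan_at`: `τ = e₁`, `e₂ = -e₁`; every `w ∈ K`, `w ≠ y` is in one of the arms; `ht_eq_dirn`, `norm_sub_dirn`, `q_mono`. -/

namespace Vale.Agent.P128.J

open MeasureTheory Set Metric Filter Topology
open scoped ENNReal ComplexConjugate

noncomputable section

variable {Ω K P M : Set ℂ} {ε r s t η ρ B : ℝ} {wk : Prop} {u : ℂ → ℝ} {x y e : ℂ}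

theorem pt_TanA {P M : Set ℂ} {η' : ℝ} {d : ℂ} (S : Side K P M y s η e) (F : Fl K y s η' d)
    (hs : 0 < s) (hη : η' ≤ 1 / 100) :
    ∃ w ∈ K, s / 2 ≤ ‖w - y‖ ∧ ‖w - y‖ ≤ s ∧ ‖dirn y w - d‖ ≤ 3 * η' ∧
      |ab y e w - 3 * s / 4 * (d * conj e).re| ≤ η' * s ∧ s / 2 - η * s ≤ |ab y e w| := by
  have h0 := F.nonneg hs
  have hd := F.unit
  have ht : 0 < 3 * s / 4 := by positivity
  obtain ⟨w, hw, h1⟩ := F.low (3 * s / 4) (by rw [abs_of_pos ht]; linarith)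
  have a1 : η' * s ≤ 1 / 100 * s := mul_le_mul_of_nonneg_right hη hs.le
  have a2 : ‖((3 * s / 4 : ℝ) : ℂ) * d‖ = 3 * s / 4 := by
    rw [norm_mul, hd, mul_one, Complex.norm_real, Real.norm_eq_abs, abs_of_pos ht]
  have a3 := abs_norm_sub_norm_le (w - y) (((3 * s / 4 : ℝ) : ℂ) * d)
  rw [a2, sub_sub] at a3
  have a4 := abs_le.1 (a3.trans h1)
  have a5 : ‖w - y‖ ≤ s := by linarith [a4.2]
  have a6 : ab y e (y + ((3 * s / 4 : ℝ) : ℂ) * d) = 3 * s / 4 * (d * conj e).re := by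
    rw [ab, add_sub_cancel_left, mul_assoc, Complex.re_ofReal_mul]
  refine ⟨w, hw, by linarith [a4.1], a5, (dirn_near hd ht h1).trans ?_, ?_, ?_⟩
  · rw [div_le_iff₀ ht]
    nlinarith [mul_nonneg h0 hs.le]
  · rw [← a6]
    exact (lip_ab S.fl.unit y _ _).trans h1
  · linarith [norm_le_ab_ht S.fl.unit y w, S.fl.up w hw a5, a4.1]

theorem ht_le_TanA (he : ‖e‖ = 1) (y w : ℂ) : |ht y e w| ≤ ‖w - y‖ * ‖dirn y w - e‖ := by
  have a1 := lip_ht he y w (y + ((‖w - y‖ : ℝ) : ℂ) * e)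
  rwa [ht_line he, sub_zero, norm_sub_dirn] at a1

theorem opp {R : ℝ} {e₁ e₂ : ℂ} (h : Lab K x r η P M) (hη : η ≤ 1 / 1000) (hy : y ∈ K)
    (hρ : 0 < ρ) (hr : ‖y - x‖ + ρ ≤ r) (hR : 0 < R) (hB : 0 ≤ B)
    (h1 : ∀ z ∈ K, rot y z ∈ P → ‖z - y‖ ∈ Ioc 0 ρ →
      ‖dirn y z - e₁‖ ≤ B * (‖z - y‖ / R) ^ (1 / 4 : ℝ))
    (h2 : ∀ z ∈ K, rot y z ∈ M → ‖z - y‖ ∈ Ioc 0 ρ →
      ‖dirn y z - e₂‖ ≤ B * (‖z - y‖ / R) ^ (1 / 4 : ℝ))
    (hv : ∀ η' s₀ : ℝ, 0 < η' → 0 < s₀ → ∃ s e, 0 < s ∧ s ≤ s₀ ∧ Fl K y s η' e) :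
    e₂ = -e₁ := by
  refine eq_neg_of_add_eq_zero_right (norm_le_zero_iff.1 (le_of_forall_pos_le_add fun δ hδ => ?_))
  obtain ⟨s₀, hq, hs₀⟩ := (((tendsto_q hR B).eventually
    (ge_mem_nhds (show 0 < δ / 4 by positivity))).and self_mem_nhdsWithin).exists
  obtain ⟨s, e', hs, hss, F⟩ := hv (min (δ / 100) (1 / 100)) (min s₀ ρ) (by positivity)
    (lt_min hs₀ hρ)
  have m1 : min (δ / 100) (1 / 100) ≤ δ / 100 := min_le_left _ _
  have m2 : min (δ / 100) (1 / 100) ≤ 1 / 100 := min_le_right _ _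
  generalize min (δ / 100) (1 / 100) = η' at F m1 m2
  have s1 : s ≤ s₀ := hss.trans (min_le_left _ _)
  have s2 : s ≤ ρ := hss.trans (min_le_right _ _)
  obtain ⟨e, S⟩ := h.side y hy s hs (by linarith)
  have key : ∀ (w w' d : ℂ), w ∈ K → w' ∈ K → s / 2 ≤ ‖w - y‖ → ‖w - y‖ ≤ s → s / 2 ≤ ‖w' - y‖ →
      ‖w' - y‖ ≤ s → ‖dirn y w - d‖ ≤ 3 * η' → ‖dirn y w' - -d‖ ≤ 3 * η' → 0 < ab y e w →
      ab y e w' < 0 → ‖e₁ + e₂‖ ≤ 0 + δ := by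
    intro w w' d k k' a1 a2 a3 a4 a5 a6 a7 a8
    have b1 := h1 w k ((h.arm (by linarith) S hs k a1 a2).1.2 a7) ⟨by linarith, by linarith⟩
    have b2 := h2 w' k' ((h.arm (by linarith) S hs k' a3 a4).2.1.2 a8) ⟨by linarith, by linarith⟩
    have b3 := q_mono hR hB (norm_nonneg (w - y)) (a2.trans s1)
    have b4 := q_mono hR hB (norm_nonneg (w' - y)) (a4.trans s1)
    have b5 : e₁ + e₂ = (dirn y w - d - (dirn y w - e₁)) + (dirn y w' - -d - (dirn y w' - e₂)) := by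
      ring
    have b6 := norm_sub_le (dirn y w - d) (dirn y w - e₁)
    have b7 := norm_sub_le (dirn y w' - -d) (dirn y w' - e₂)
    rw [b5]
    refine (norm_add_le _ _).trans ?_
    linarith
  obtain ⟨w, k, a1, a2, a3, a4, a5⟩ := pt_TanA S F hs m2
  obtain ⟨w', k', c1, c2, c3, c4, c5⟩ := pt_TanA S F.neg hs m2
  rw [neg_mul, Complex.neg_re] at c4
  have d1 : η * s ≤ 1 / 1000 * s := mul_le_mul_of_nonneg_right hη hs.le
  have d2 : η' * s ≤ 1 / 100 * s := mul_le_mul_of_nonneg_right m2 hs.le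
  have d3 := abs_le.1 a4
  have d4 := abs_le.1 c4
  rcases le_total 0 (ab y e w) with p | p
  · rw [abs_of_nonneg p] at a5
    refine key w w' e' k k' a1 a2 c1 c2 a3 c3 (by linarith) (by linarith [d3.2, d4.2])
  · rw [abs_of_nonpos p] at a5
    refine key w' w (-e') k' k c1 c2 a1 a2 c3 (by rwa [neg_neg]) (by linarith [d3.1, d4.1])
      (by linarith)

theorem tan_at {A R : ℝ} (hK : IsClosed K) (h : Lab K x r η P M) (hη : η ≤ 1 / 1000) (hy : y ∈ K)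
    (hρ : 0 < ρ) (hr : ‖y - x‖ + 3 * ρ ≤ r) (hA : 0 < A) (hR : 0 < R)
    (hl : ∀ s ∈ Ioc 0 (2 * ρ), μH[1] (K ∩ closedBall y s) ≤ ENNReal.ofReal (2 * s + s / 40) ∧
      μH[1] (K ∩ closedBall y s) ≤ ENNReal.ofReal (2 * s + A * s * √(s / R)))
    (hv : ∀ η' s₀ : ℝ, 0 < η' → 0 < s₀ → ∃ s e, 0 < s ∧ s ≤ s₀ ∧ Fl K y s η' e) :
    ∃ τ, TanAt K y ρ (400 * √A) R τ := by
  obtain ⟨xP, e₁, u1, H1⟩ := arm_P hK h hη hy hρ hr hA hR hl
  obtain ⟨xM, e₂, u2, H2⟩ := arm_P hK h.symm hη hy hρ hr hA hR hl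
  have hB : 0 ≤ 400 * √A := by positivity
  obtain rfl := opp h hη hy hρ (by linarith) hR hB H1 H2 hv
  refine ⟨e₁, fun t ht => ?_⟩
  have t0 := ht.1
  have q0 : 0 ≤ 400 * √A * (t / R) ^ (1 / 4 : ℝ) * t := by positivity
  have fin : ∀ {a b : ℝ}, 0 ≤ a → a ≤ t → 0 ≤ b → b ≤ 400 * √A * (a / R) ^ (1 / 4 : ℝ) →
      a * b ≤ 400 * √A * (t / R) ^ (1 / 4 : ℝ) * t := fun {a b} a0 a1 b0 b1 => by
    rw [mul_comm a b]
    exact mul_le_mul (b1.trans (q_mono hR hB a0 a1)) a1 a0 (by positivity)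
  refine ⟨u1, fun w hw hwt => ?_, fun τ hτ => ?_⟩
  · rcases eq_or_ne w y with rfl | hne
    · simpa [J.ht] using q0
    have a0 : 0 < ‖w - y‖ := norm_pos_iff.2 (sub_ne_zero.2 hne)
    have a1 : ‖w - y‖ ∈ Ioc 0 ρ := ⟨a0, hwt.trans ht.2⟩
    obtain ⟨e, S⟩ := h.side y hy _ a0 (by linarith [a1.2])
    obtain ⟨b1, b2, b3⟩ := h.arm (by linarith) S a0 hw (by linarith) le_rfl
    rcases lt_or_gt_of_ne b3 with p | p
    · have c1 := ht_le_TanA u2 y w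
      rw [ht_neg, abs_neg] at c1
      exact c1.trans (fin a0.le hwt (norm_nonneg _) (H2 w hw (b2.2 p) a1))
    · exact (ht_le_TanA u1 y w).trans (fin a0.le hwt (norm_nonneg _) (H1 w hw (b1.2 p) a1))
  · have a1 := abs_le.1 hτ
    rcases lt_trichotomy τ 0 with p | rfl | p
    · have a2 : -τ ∈ Ioc 0 ρ := ⟨by linarith, by linarith [a1.1, ht.2]⟩
      obtain ⟨z, hz, b1, b2⟩ := xM _ a2
      refine ⟨z, hz, ?_⟩
      have b3 : y + (τ : ℂ) * e₁ = y + ((‖z - y‖ : ℝ) : ℂ) * -e₁ := by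
        rw [b2]
        push_cast
        ring
      rw [b3, norm_sub_dirn]
      exact fin (norm_nonneg _) (by linarith [a1.1]) (norm_nonneg _) (H2 z hz b1 (b2 ▸ a2))
    · exact ⟨y, hy, by simpa using q0⟩
    · have a2 : τ ∈ Ioc 0 ρ := ⟨p, a1.2.trans ht.2⟩
      obtain ⟨z, hz, b1, rfl⟩ := xP _ a2
      refine ⟨z, hz, ?_⟩
      rw [norm_sub_dirn]
      exact fin (norm_nonneg _) a1.2 (norm_nonneg _) (H1 z hz b1 a2)

end

end Vale.Agent.P128.J
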