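import Vale.Agent.P128.J.TanA
import Vale.Agent.P128.J.Decay
import Vale.Agent.P128.J.LenUp

/-! P128 J/TanC (TASK, owner helper27, notes/P128J.md). Helper names end with `_TanC`.
Assembly. `lab_of_rfl` with `r = R/20`; for `y` with `‖y - x‖ ≤ R/100` put `r₁ = R/25`: `decay` with `κ = P.indicator 1` (`Lab.lc`), `G = {t | cnt K y t = 2}` (`measurable_cnt`, `Lab.good`, `bad_le` with `Lab.two` and `RLen`),
`lenup` with `N = 2`, `√(s / (R/25)) = 5 √(s / R)`, `tan_at` with `ρ = R/100`, `A' = 5 (12000 A + 3)`, `B = 400 √A'`. -/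

namespace Vale.Agent.P128.J

open MeasureTheory Set Metric Filter Topology
open scoped ENNReal ComplexConjugate

noncomputable section

variable {Ω K P M : Set ℂ} {ε r s t η ρ B : ℝ} {wk : Prop} {u : ℂ → ℝ} {x y e : ℂ}

theorem tan_core : ∃ B : ℝ, 1 ≤ B ∧ ∀ (Ω : Set ℂ) (ε : ℝ) (wk : Prop) (u : ℂ → ℝ) (K : Set ℂ),
    AM0 Ω ε wk u K → ∀ x ∈ K, ∀ R : ℝ, 0 < R → closedBall x R ⊆ Ω → RFl K x R (1 / 20000) →
      RLen K x R (1 / 1000) → VFl K x R → Tan K x (R / 100) B R := by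
  obtain ⟨A, hA, HD⟩ := decay
  have hA' : 0 < 5 * (12000 * A + 3) := by positivity
  refine ⟨400 * √(5 * (12000 * A + 3)), ?_, fun Ω ε wk u K h x hx R hR hB hF hL hV y hy hd => ?_⟩
  · have : 1 ≤ √(5 * (12000 * A + 3)) := Real.one_le_sqrt.2 (by linarith)
    linarith
  obtain ⟨P, M, hlab⟩ := lab_of_rfl (r := R / 20) h.closed hx (by positivity)
    (hF.mono (by linarith) le_rfl) (by norm_num)
  have hη : 16 * (1 / 20000 : ℝ) ≤ 1 / 100 := by norm_num
  have r0 : 0 < R / 25 := by positivity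
  have r1 : ‖y - x‖ + R / 25 ≤ R / 20 := by linarith
  have hBy : closedBall y (R / 25) ⊆ Ω :=
    (closedBall_subset_closedBall' (by rw [dist_eq_norm]; linarith)).trans hB
  have two : ∀ t ∈ Ioo 0 (R / 25), ((2 : ℕ) : ℝ≥0∞) ≤ cnt K y t := fun t ht =>
    hlab.two hη hy ht.1 (by linarith [ht.2])
  have hlen : ∀ s ∈ Ioc 0 (R / 25),
      μH[1] (K ∩ closedBall y s) ≤ ENNReal.ofReal ((2 : ℕ) * s + s / 1000) := fun s hs =>
    (hL y hy s hs.1 (by linarith [hs.2])).trans (ENNReal.ofReal_le_ofReal (by push_cast; linarith))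
  have bad : ∀ s ∈ Ioc 0 (R / 25),
      volume {t | t ∈ Ioo 0 s ∧ cnt K y t ≠ (2 : ℕ)} ≤ ENNReal.ofReal (s / 1000) := fun s hs =>
    bad_le h.closed hs.1.le (by linarith [hs.1]) (fun t ht => two t ⟨ht.1, ht.2.trans_le hs.2⟩)
      (hlen s hs)
  have bad' : ∀ s ∈ Ioc 0 (R / 25), ∀ b : ℝ, s / 1000 ≤ b → ∀ S : Set ℝ,
      S ⊆ {t | t ∈ Ioo 0 s ∧ cnt K y t ≠ (2 : ℕ)} → volume S ≤ ENNReal.ofReal b :=
    fun s hs b hb S hS => ((measure_mono hS).trans (bad s hs)).trans (ENNReal.ofReal_le_ofReal hb)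
  have hD := HD Ω ε wk u K h y (R / 25) r0 hBy (P.indicator 1) (hlab.lc r1)
    {t | cnt K y t = (2 : ℕ)} (measurable_cnt h.closed y (measurableSet_singleton _))
    (fun s hs hs' => hlab.good hη hy hs'.1 hs'.2 r1 hs)
    (fun s hs => bad' s hs (s / 200) (by linarith [hs.1]) _
      fun t ht => ⟨⟨by linarith [ht.1.1, hs.1], ht.1.2⟩, ht.2⟩)
  refine tan_at h.closed hlab (by norm_num) hy (by positivity) (by linarith) hA' hR
    (fun s hs => ⟨?_, ?_⟩) (hV y hy (by linarith))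
  · refine (hlen s ⟨hs.1, by linarith [hs.2]⟩).trans (ENNReal.ofReal_le_ofReal ?_)
    push_cast
    linarith [hs.1]
  · have s0 := hs.1
    refine (lenup hA h r0 hBy hD two hs.1 (by linarith [hs.2])
      (bad' (2 * s) ⟨by linarith, by linarith [hs.2]⟩ (s / 2) (by linarith) _
        fun t ht => ⟨⟨s0.trans ht.1.1, ht.1.2⟩, ht.2⟩)).trans (le_of_eq ?_)
    have e : √(s / (R / 25)) = 5 * √(s / R) := by
      rw [show s / (R / 25) = 5 ^ 2 * (s / R) by field_simp; norm_num,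
        Real.sqrt_mul (by norm_num), Real.sqrt_sq (by norm_num)]
    rw [e]
    congr 1
    push_cast
    ring

end

end Vale.Agent.P128.J
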